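import Crest.Agent.X212.Hel40.Bas
import Crest.Agent.X212.Arc9.Lev
import Crest.Agent.X212.Orx52.Orb
import Crest.Agent.X212.Hel40.Defs
import Crest.Agent.X212.Hd34.Del
import Crest.Agent.X212.Coc52.Coc
import Crest.Agent.X212.H7.K
import Crest.Agent.X212.Hd34.Hd
import Crest.Agent.X212.Hm4.Idle
import Crest.Agent.X212.Hel40.Stp
import Crest.Agent.X212.Hl33.Conn
import Crest.Agent.X212.Box46.Box
import Crest.Agent.X212.Box46.Trk
import Crest.Agent.X212.Tw39.Main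
import Crest.Agent.X212.Tw39.Tw
import Crest.Agent.X212.Cut44.Slide
import Crest.Agent.X212.Orx52.All

-- ▼ part X212/Lad50/GenA
section

/-!
# Row 212, HEL-GENUS (helper50), part A: the column over a handle of the fibre
-/

set_option autoImplicit false
set_option linter.unusedSectionVars false

open Set Filter Topology Function
open scoped ContDiff Manifold
open Crest.Agent.R208.F Crest.Agent.X212.Dr59 Crest.Agent.X212.Int54 Crest.Agent.X212.Cyl58
open Crest.Agent.X212.Sep15 (EE IR CM Box)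
open Crest.Agent.X212.Bb31 (Fm)
open Crest.Agent.X212.Flo26 (SmV fl)
open Crest.Agent.X212.Hel40

noncomputable section

namespace Crest.Agent.X212.Lad50.Gn

variable {Y : CM 3} {R : CM 2} {o : Fm 3 Y} {v : Vf Y} {Φ : Y → Circle} {M : Set Y}

theorem exp_ne {θ : ℝ} (h0 : θ ≠ 0) (h : |θ| < 2 * Real.pi) : Circle.exp θ ≠ 1 := fun e => by
  obtain ⟨n, rfl⟩ := Circle.exp_eq_one.1 e
  rw [abs_mul, abs_of_pos Real.two_pi_pos, mul_lt_iff_lt_one_left Real.two_pi_pos] at h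
  have : |n| < 1 := by exact_mod_cast h
  exact h0 (by simp [Int.abs_lt_one_iff.1 this])

theorem speed (hB : Bas o v Φ M) {α β : ℝ} (h : ∀ θ ∈ Icc α β, Circle.exp θ ≠ 1) :
    ∃ c > (0 : ℝ), ∀ y, Φ y = 1 → ∀ s t, s ≤ t → α ≤ ag Φ v y s → ag Φ v y t ≤ β →
      c * (t - s) ≤ β - α := by
  have hS : IsCompact (Φ ⁻¹' (Circle.exp '' Icc α β)) :=
    ((isCompact_Icc.image Circle.exp.continuous).isClosed.preimage hB.smΦ.continuous).isCompact
  obtain ⟨c, hc, hm⟩ := hS.exists_forall_le' (continuous_rt hB.smv hB.smΦ).continuousOn (a := 0)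
    fun y ⟨θ, h1, h2⟩ => hB.pos y fun hy => h θ h1 (h2.trans (hB.one y hy))
  refine ⟨c, hc, fun y hy s t hst h1 h2 => ?_⟩
  have hd := hasDerivAt_ag hB.smv hB.smΦ y
  have hmo := ag_mono hB.smv hB.smΦ hB.nn y
  have := (convex_Icc s t).mul_sub_le_image_sub_of_le_deriv (f := ag Φ v y) (C := c)
    (fun x _ => (hd x).continuousAt.continuousWithinAt)
    (fun x _ => (hd x).differentiableAt.differentiableWithinAt) (fun x hx => by
      have hx' := interior_subset hx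
      rw [(hd x).deriv]
      exact hm _ ⟨ag Φ v y x, ⟨h1.trans (hmo hx'.1), (hmo hx'.2).trans h2⟩, by
        rw [phi_fl hB.smv hB.smΦ, hy, one_mul]⟩)
    s (left_mem_Icc.2 hst) t (right_mem_Icc.2 hst) hst
  linarith

theorem strict0 (hB : Bas o v Φ M) {y : Y} (hy : y ∈ PP Φ M) :
    (∀ s < 0, ag Φ v y s < 0) ∧ ∀ s > 0, 0 < ag Φ v y s := by
  simpa only [ag_zero] using ag_strict hB.smv hB.smΦ hB.nn (y := y) (t := 0)
    (by rw [Flo26.fl_zero hB.smv]; exact hB.pos y hy.2)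

theorem rt_pos (hB : Bas o v Φ M) {y : Y} (hy : y ∈ PP Φ M) {t : ℝ}
    (h : |ag Φ v y t| < 2 * Real.pi) : 0 < rt Φ v (fl v t y) := by
  refine hB.pos _ fun hm => ?_
  have h1 := hB.one _ hm
  rw [phi_fl hB.smv hB.smΦ, hy.1, one_mul] at h1
  rcases lt_trichotomy t 0 with h2 | rfl | h2
  · exact exp_ne ((strict0 hB hy).1 t h2).ne h h1
  · exact hy.2 (by rwa [Flo26.fl_zero hB.smv] at hm)
  · exact exp_ne ((strict0 hB hy).2 t h2).ne' h h1

theorem ag_inj (hB : Bas o v Φ M) {y : Y} {s t : ℝ} (h : 0 < rt Φ v (fl v t y))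
    (e : ag Φ v y s = ag Φ v y t) : s = t := by
  have := ag_strict hB.smv hB.smΦ hB.nn h
  rcases lt_trichotomy s t with h1 | h1 | h1
  exacts [((this.1 s h1).ne e).elim, h1, ((this.2 s h1).ne' e).elim]

theorem ag_surj (hB : Bas o v Φ M) {y : Y} (hy : y ∈ PP Φ M) {θ : ℝ} (h : |θ| < 2 * Real.pi) :
    ∃ t, ag Φ v y t = θ := by
  have h1 : ∃ t, θ ≤ ag Φ v y t := by
    by_contra! hn
    have h0 := (strict0 hB hy).2 1 one_pos
    obtain ⟨c, hc, H⟩ := speed hB (α := ag Φ v y 1) (β := θ) fun x hx =>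
      exp_ne (h0.trans_le hx.1).ne' (by
        rw [abs_of_pos (h0.trans_le hx.1)]; exact hx.2.trans_lt (lt_of_abs_lt h))
    have h2 : 0 < θ / c := div_pos (h0.trans (hn 1)) hc
    have := H y hy.1 1 (1 + θ / c) (by linarith) le_rfl (hn _).le
    rw [add_sub_cancel_left, mul_div_cancel₀ _ hc.ne'] at this
    linarith
  have h2 : ∃ t, ag Φ v y t ≤ θ := by
    by_contra! hn
    have h0 := (strict0 hB hy).1 (-1) (by norm_num)
    obtain ⟨c, hc, H⟩ := speed hB (α := θ) (β := ag Φ v y (-1)) fun x hx =>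
      exp_ne (hx.2.trans_lt h0).ne (by
        rw [abs_of_neg (hx.2.trans_lt h0)]; linarith [hx.1, neg_lt_of_abs_lt h])
    have h2 : 0 < -θ / c := div_pos (neg_pos.2 ((hn (-1)).trans h0)) hc
    have := H y hy.1 (-1 - -θ / c) (-1) (by linarith) (hn _).le le_rfl
    rw [sub_sub_cancel, mul_div_cancel₀ _ hc.ne'] at this
    linarith
  obtain ⟨t₁, h1⟩ := h1
  obtain ⟨t₂, h2⟩ := h2
  exact intermediate_value_univ t₂ t₁ (continuous_iff_continuousAt.2 fun t =>
    (hasDerivAt_ag hB.smv hB.smΦ y t).continuousAt) ⟨h2, h1⟩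

/-- columns over `V` are embedded -/
theorem col_inj (hB : Bas o v Φ M) {V : Set Y} (hV : V ⊆ PP Φ M)
    (ret : ∀ y ∈ V, ∀ T > (0 : ℝ), fl v T y ∈ V → ∃ t ∈ Ioo 0 T, Φ (fl v t y) = 1) {y y' : Y}
    (hy : y ∈ V) (hy' : y' ∈ V) {s s' : ℝ} (e : fl v s y = fl v s' y') (h : |ag Φ v y s| < 4)
    (h' : |ag Φ v y' s'| < 4) : y = y' ∧ s = s' := by
  wlog hs : s' ≤ s generalizing y y' s s'
  · exact (this hy' hy e.symm h' h (le_of_not_ge hs)).imp Eq.symm Eq.symm
  have e1 : fl v (s - s') y = y' := by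
    rw [sub_eq_neg_add, fl_add hB.smv, e, ← fl_add hB.smv, neg_add_cancel, Flo26.fl_zero hB.smv]
  rcases hs.eq_or_lt with rfl | hs
  · exact ⟨by rwa [sub_self, Flo26.fl_zero hB.smv] at e1, rfl⟩
  exfalso
  have e2 := ag_add hB.smv hB.smΦ y s' (s - s')
  rw [add_sub_cancel, e1] at e2
  obtain ⟨t, ht, h1⟩ := ret y hy _ (sub_pos.2 hs) (e1 ▸ hy')
  have h2 := (hV hy').1
  rw [← e1] at h2
  rw [phi_fl hB.smv hB.smΦ, (hV hy).1, one_mul, Circle.exp_eq_one] at h1 h2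
  obtain ⟨m, hm⟩ := h1
  obtain ⟨n, hn⟩ := h2
  have h3 := (strict0 hB (hV hy)).2 t ht.1
  have h4 := (ag_strict hB.smv hB.smΦ hB.nn (y := y) (t := s - s')
    (by rw [e1]; exact hB.pos _ (hV hy').2)).1 t ht.2
  rw [hm] at h3
  rw [hm, hn] at h4
  have h5 : (0 : ℤ) < m := by exact_mod_cast (pos_iff_pos_of_mul_pos h3).2 Real.two_pi_pos
  have h6 : m < n := by exact_mod_cast lt_of_mul_lt_mul_right h4 Real.two_pi_pos.le
  have h7 : (2 : ℝ) ≤ n := by exact_mod_cast (show (2 : ℤ) ≤ n by omega)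
  nlinarith [Real.pi_gt_three, abs_lt.1 h, abs_lt.1 h']

theorem mf_prod {E' H' N : Type*} [NormedAddCommGroup E'] [NormedSpace ℝ E'] [TopologicalSpace H']
    {J : ModelWithCorners ℝ E' H'} [TopologicalSpace N] [ChartedSpace H' N] {f : ℂ × ℝ → N}
    {p : ℂ × ℝ} (hf : MDifferentiableAt ICR J f p) (ζ : ℂ) (σ : ℝ) :
    mf ICR J f p (ζ, σ) = mf 𝓘(ℝ, ℂ) J (fun z => f (z, p.2)) p.1 ζ +
      mf 𝓘(ℝ, ℝ) J (fun s => f (p.1, s)) p.2 σ := mfderiv_prod_eq_add_apply hf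

theorem mf_inj {E₁ H₁ M₁ E' H' N : Type*} [NormedAddCommGroup E₁] [NormedSpace ℝ E₁]
    [TopologicalSpace H₁] {I : ModelWithCorners ℝ E₁ H₁} [TopologicalSpace M₁] [ChartedSpace H₁ M₁]
    [NormedAddCommGroup E'] [NormedSpace ℝ E'] [TopologicalSpace H']
    {J : ModelWithCorners ℝ E' H'} [TopologicalSpace N] [ChartedSpace H' N] {f : M₁ → N} {x : M₁}
    (h : IsLocalDiffeomorphAt I J ∞ f x) : Injective (mf I J f x) :=
  (h.mfderivToContinuousLinearEquiv (by simp)).injective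

/-- the field as a vector of the model -/
def ve (v : Vf Y) (y : Y) : EE 3 := v y

theorem isOpen_Xo (δ : ℝ) : IsOpen (Xo δ) := by
  simp only [Xo, ofPred_or, ofPred_exists]
  exact (isOpen_iUnion fun n => isOpen_lt (by fun_prop) continuous_const).union
    (isOpen_iUnion fun n => isOpen_lt (by fun_prop) continuous_const)

/-- the column over a transversal -/
theorem col_of (hB : Bas o v Φ M) {V : Set Y} (hV : V ⊆ PP Φ M)
    (ret : ∀ y ∈ V, ∀ T > (0 : ℝ), fl v T y ∈ V → ∃ t ∈ Ioo 0 T, Φ (fl v t y) = 1)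
    {δ c : ℝ} (h0 : 0 < δ) (h1 : δ < 1 / 2) {P : ℂ → Y}
    (hs : ∀ z ∈ Xo δ, ContMDiffAt 𝓘(ℝ, ℂ) (𝓡 3) ∞ P z ∧ Injective (mf 𝓘(ℝ, ℂ) (𝓡 3) P z))
    (hc : ∀ z, Φ (P z) = Circle.exp c) (hc' : Circle.exp c ≠ 1)
    (hP : ∀ z ∈ Xo δ, ∀ w ∈ Xo δ, P z = P w ↔ Lat z w)
    (hT : ∀ z ∈ Xo δ, ∃ T, fl v T (P z) ∈ V ∧ c + ag Φ v (P z) T = 0) :
    ∃ E, Col v Φ δ 4 E ∧ ∀ z ∈ Xo δ, E (z, 0) ∈ PP Φ M := by
  have hv := hB.smv
  have hΦ := hB.smΦ
  have h4 : ∀ {θ : ℝ}, |θ| < 4 → |θ| < 2 * Real.pi := fun h => by linarith [Real.pi_gt_three]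
  set a : ℂ × ℝ → ℝ := fun p => c + ag Φ v (P p.1) p.2 with ha
  set Ψ : ℂ × ℝ → Y := fun p => fl v p.2 (P p.1) with hΨ
  set τ : ℂ × ℝ → ℝ := fun p => invFun (fun t => c + ag Φ v (P p.1) t) p.2 with hτ
  have eΦ : ∀ p, Φ (Ψ p) = Circle.exp (a p) := fun p => by
    simp only [hΨ, ha]; rw [phi_fl hv hΦ, hc, Circle.exp_add]
  choose! T hT1 hT2 using hT
  have e1 : ∀ z t, Ψ (z, t) = fl v (t - T z) (fl v (T z) (P z)) := fun z t => by
    rw [← fl_add hv, sub_add_cancel]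
  have e2 : ∀ z ∈ Xo δ, ∀ t, a (z, t) = ag Φ v (fl v (T z) (P z)) (t - T z) := fun z hz t => by
    have := ag_add hv hΦ (P z) (t - T z) (T z)
    rw [sub_add_cancel] at this
    simp only [ha]
    linarith [hT2 z hz]
  have pos : ∀ p : ℂ × ℝ, p.1 ∈ Xo δ → |a p| < 4 → 0 < rt Φ v (Ψ p) := fun p hp h => by
    rw [e1]; exact rt_pos hB (hV (hT1 _ hp)) (h4 (e2 _ hp _ ▸ h))
  have eτ : ∀ p : ℂ × ℝ, p.1 ∈ Xo δ → |p.2| < 4 → a (p.1, τ p) = p.2 := fun p hp h => by
    obtain ⟨t, ht⟩ := ag_surj hB (hV (hT1 _ hp)) (h4 h)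
    exact invFun_eq (f := fun t => c + ag Φ v (P p.1) t) ⟨t + T p.1, by
      rw [← ht]; simpa using e2 _ hp (t + T p.1)⟩
  have eτ' : ∀ p : ℂ × ℝ, p.1 ∈ Xo δ → |a p| < 4 → τ (p.1, a p) = p.2 := fun p hp h =>
    ag_inj hB (pos p hp h) (add_left_cancel (eτ (p.1, a p) hp h))
  have sΨ : ∀ p : ℂ × ℝ, p.1 ∈ Xo δ → ContMDiffAt ICR (𝓡 3) ∞ Ψ p := fun p hp =>
    ((cpl hv).contMDiff hv (p.2, P p.1)).comp p
      (contMDiffAt_snd.prodMk ((hs _ hp).1.comp p contMDiffAt_fst))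
  have ca : ∀ p : ℂ × ℝ, p.1 ∈ Xo δ → ContinuousAt a p := fun p hp =>
    continuousAt_const.add ((continuous_ag hv hΦ).continuousAt.comp
      (f := fun p : ℂ × ℝ => (P p.1, p.2))
      (((hs _ hp).1.continuousAt.comp continuousAt_fst).prodMk continuousAt_snd))
  have sa : ∀ p : ℂ × ℝ, p.1 ∈ Xo δ → ContMDiffAt ICR 𝓘(ℝ, ℝ) ∞ a p := fun p hp =>
    contMDiffAt_log (ca p hp) (by
      rw [← funext eΦ]; exact (hΦ _).comp p (sΨ p hp))
  have hO : IsOpen (Prod.fst ⁻¹' Xo δ : Set (ℂ × ℝ)) := (isOpen_Xo δ).preimage continuous_fst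
  have dΨ : ∀ p : ℂ × ℝ, p.1 ∈ Xo δ → ∀ ζ σ, mf ICR (𝓡 3) Ψ p (ζ, σ) =
      mf (𝓡 3) (𝓡 3) (fl v p.2) (P p.1) (mf 𝓘(ℝ, ℂ) (𝓡 3) P p.1 ζ) + σ • ve v (Ψ p) := by
    intro p hp ζ σ
    rw [mf_prod ((sΨ p hp).mdifferentiableAt (by simp)),
      mf_of_has (Flo26.hasMFDerivAt_fl hv (cpl hv (p.2, P p.1)))]
    congr 1
    exact DFunLike.congr_fun (mf_comp ((Flo26.ld_fl hv (cpl hv (p.2, P p.1))).mdifferentiableAt
      (by simp)) ((hs _ hp).1.mdifferentiableAt (by simp))) ζ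
  have lΨ : ∀ p : ℂ × ℝ, p.1 ∈ Xo δ → IsLocalDiffeomorphAt ICR (𝓡 3) ∞ Ψ p := fun p hp => by
    refine Glue52.ld_of_injective_mfderiv (by simp) hO hp
      (fun q hq => (sΨ q hq).contMDiffWithinAt) ((injective_iff_map_eq_zero (mf ICR (𝓡 3) Ψ p)).2 ?_)
    rintro ⟨ζ, σ⟩ h
    have h2 : mf (𝓡 3) (𝓡 3) (fl v p.2) (P p.1) (ve v (P p.1)) = ve v (Ψ p) :=
      Flo26.mfderiv_fl hv (cpl hv (p.2, P p.1))
    rw [dΨ p hp, ← h2, ← map_smul, ← map_add] at h
    have h3 := (injective_iff_map_eq_zero _).1 (mf_inj (Flo26.ld_fl hv (cpl hv (p.2, P p.1)))) _ h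
    have h5 := congrArg (dl (𝓡 3) Φ (P p.1)) h3
    rw [map_add, map_smul, map_zero, ← dl_comp (hΦ _) ((hs _ hp).1.mdifferentiableAt (by simp)),
      dl_of_const (g := Φ ∘ P) (c := Circle.exp c) (Eventually.of_forall hc), LinearMap.zero_apply, zero_add] at h5
    have h6 : 0 < rt Φ v (P p.1) := hB.pos _ fun hm => hc' ((hc _).symm.trans (hB.one _ hm))
    obtain rfl : σ = 0 := (mul_eq_zero.1 h5).resolve_right h6.ne'
    rw [zero_smul, add_zero] at h3
    rw [(injective_iff_map_eq_zero _).1 (hs _ hp).2 _ h3]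
    rfl
  set Θ : ℂ × ℝ → ℂ × ℝ := fun p => (p.1, a p) with hΘ
  have sΘ : ∀ p : ℂ × ℝ, p.1 ∈ Xo δ → ContMDiffAt ICR ICR ∞ Θ p := fun p hp =>
    contMDiffAt_fst.prodMk (sa p hp)
  have dΘ : ∀ p : ℂ × ℝ, p.1 ∈ Xo δ → ∀ ζ σ, mf ICR ICR Θ p (ζ, σ) =
      (ζ, mf 𝓘(ℝ, ℂ) 𝓘(ℝ, ℝ) (fun z => a (z, p.2)) p.1 ζ + σ * rt Φ v (Ψ p)) := by
    intro p hp ζ σ
    have h2 : mf 𝓘(ℝ, ℝ) 𝓘(ℝ, ℝ) (fun s => a (p.1, s)) p.2 σ = σ * rt Φ v (Ψ p) := by
      rw [mf_eq_fderiv, ((hasDerivAt_ag hv hΦ (P p.1) p.2).const_add c).hasFDerivAt.fderiv]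
      simp [hΨ]
    rw [hΘ, mf_prodMk mdifferentiableAt_fst ((sa p hp).mdifferentiableAt (by simp)),
      ContinuousLinearMap.prod_apply, mf_prod ((sa p hp).mdifferentiableAt (by simp)), h2, mf_fst]
    rfl
  have lΘ : ∀ p : ℂ × ℝ, p.1 ∈ Xo δ → |a p| < 4 → IsLocalDiffeomorphAt ICR ICR ∞ Θ p :=
    fun p hp h => by
      refine Glue52.ld_of_injective_mfderiv rfl hO hp
        (fun q hq => (sΘ q hq).contMDiffWithinAt) ((injective_iff_map_eq_zero (mf ICR ICR Θ p)).2 ?_)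
      rintro ⟨ζ, σ⟩ h2
      rw [dΘ p hp, Prod.mk_eq_zero] at h2
      obtain ⟨rfl, h2⟩ := h2
      rw [map_zero, zero_add] at h2
      rw [(mul_eq_zero.1 h2).resolve_right (pos p hp h).ne']
      rfl
  set E : ℂ × ℝ → Y := fun p => Ψ (p.1, τ p) with hE
  have eE : ∀ p : ℂ × ℝ, p.1 ∈ Xo δ → |a p| < 4 → E ∘ Θ =ᶠ[𝓝 p] Ψ := fun p hp h => by
    filter_upwards [hO.mem_nhds hp, (ca p hp).abs.eventually_lt_const h] with q h2 h3
    simp only [comp_apply, hE, hΘ, eτ' q h2 h3]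
  have lE : ∀ p : ℂ × ℝ, p.1 ∈ Xo δ → |a p| < 4 → IsLocalDiffeomorphAt ICR (𝓡 3) ∞ E (Θ p) :=
    fun p hp h => ld_of_comp (lΘ p hp h) (ld_congr (lΨ p hp) (eE p hp h))
  have eΘ : ∀ p : ℂ × ℝ, p.1 ∈ Xo δ → |p.2| < 4 → Θ (p.1, τ p) = p := fun p hp h =>
    Prod.ext rfl (eτ p hp h)
  refine ⟨E, ⟨h0, h1, fun p hp h => ?_, fun p q hp h hq h' => ⟨fun e => ?_, fun e => ?_⟩,
    fun p hp h => by rw [hE, eΦ, eτ p hp h], fun p hp h => ?_⟩, fun z hz => ?_⟩
  · exact eΘ p hp h ▸ lE (p.1, τ p) hp (by rwa [eτ p hp h])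
  · have h2 := eτ p hp h
    have h3 := eτ q hq h'
    rw [e2 _ hp] at h2
    rw [e2 _ hq] at h3
    simp only [hE, e1] at e
    obtain ⟨h5, h6⟩ := col_inj hB hV ret (hT1 _ hp) (hT1 _ hq) e (h2 ▸ h) (h3 ▸ h')
    refine ⟨by rw [← h2, ← h3, h5, h6], (hP _ hp _ hq).1 ?_⟩
    have h7 : ∀ z ∈ Xo δ, ag Φ v (fl v (T z) (P z)) (-T z) = c := fun z hz => by
      simpa [ha, ag_zero] using (e2 z hz 0).symm
    have h8 : ∀ z, fl v (-T z) (fl v (T z) (P z)) = P z := fun z => by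
      rw [← fl_add hv, neg_add_cancel, Flo26.fl_zero hv]
    have h9 : -T q.1 = -T p.1 := ag_inj hB (by
      rw [h8]; exact hB.pos _ fun hm => hc' ((hc _).symm.trans (hB.one _ hm)))
      (by rw [h7 _ hp, h5, h7 _ hq])
    rw [← h8 p.1, ← h8 q.1, h5, h9]
  · simp only [hE, hΨ, hτ, (hP _ hp _ hq).2 e.2, e.1]
  · have h2 : |a (p.1, τ p)| < 4 := by rwa [eτ p hp h]
    have h3 := pos (p.1, τ p) hp h2
    have h5 := DFunLike.congr_fun ((mf_congr (eE (p.1, τ p) hp h2)).symm.trans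
      (mf_comp ((lE (p.1, τ p) hp h2).mdifferentiableAt (by simp))
        ((sΘ (p.1, τ p) hp).mdifferentiableAt (by simp)))) (0, 1)
    rw [ContinuousLinearMap.comp_apply, dΨ (p.1, τ p) hp, dΘ (p.1, τ p) hp, eΘ p hp h] at h5
    simp only [map_zero, zero_add, one_smul, one_mul] at h5
    refine ⟨_, inv_pos.2 h3, ?_⟩
    have h6 : mf ICR (𝓡 3) E p (0, 1) = (rt Φ v (Ψ (p.1, τ p)))⁻¹ • ve v (Ψ (p.1, τ p)) := by
      rw [h5, ← map_smul]
      simp [h3.ne']
    exact h6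
  · have h2 := eτ (z, 0) hz (by norm_num)
    rw [e2 _ hz] at h2
    have h3 := hV (hT1 z hz)
    have h5 := ag_inj hB (t := 0) (by rw [Flo26.fl_zero hv]; exact hB.pos _ h3.2)
      (h2.trans (ag_zero _).symm)
    simp only [hE, e1]
    rwa [h5, Flo26.fl_zero hv]

end Crest.Agent.X212.Lad50.Gn
end
end

-- ▼ part X212/Lev9/Band
section

/-!
# Row 212, HEL / LEV (helper9): a band of regular levels is a finite union of annuli
-/

set_option autoImplicit false
set_option linter.unusedSectionVars false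
noncomputable section
open Set Filter Topology Function Complex
open scoped ContDiff Manifold

namespace Crest.Agent.X212.Lev9

open Crest.Agent.X212.Prf6 Crest.Agent.X212.Tub3 Crest.Agent.X212.Arc9

variable {M : Type} [TopologicalSpace M] [ChartedSpace ℂ M] [IsManifold IC ∞ M] [T2Space M]
  [CompactSpace M] {η : M → ℝ}

/-- a local field of unit rate -/
theorem exists_unit (hη : ContMDiff IC IR ∞ η) {x : M} (hx : dv η x ≠ 0) :
    ∃ N ∈ 𝓝 x, ∃ V : (y : M) → TangentSpace IC y,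
      ContMDiffOn IC (IC.prod IC) ∞ (fun y => Bundle.TotalSpace.mk' ℂ y (V y)) N ∧
      ∀ y ∈ N, dv η y (V y) = 1 := by
  set ψ := chartAt ℂ x
  set f := η ∘ ψ.symm
  have h2 := fun y hy => dv_chart isOpen_univ hη.contMDiffOn (x := x) (y := y) hy (mem_univ y)
  obtain ⟨w, hw⟩ := DFunLike.ne_iff.1 hx
  rw [h2 x (mem_chart_source ℂ x)] at hw
  set u := dc ψ x w
  have h1 : ∀ y ∈ ψ.source, ContDiffAt ℝ ∞ (fun z => fderiv ℝ f z u) (ψ y) := fun y hy =>
    (((cd_chart hη.contMDiffOn x).contDiffAt (s := _ ∩ _ ⁻¹' univ) (by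
      simpa using ψ.open_target.mem_nhds (ψ.map_source hy))).fderiv_right (by simp)).clm_apply
      contDiffAt_const
  have h3 : ∀ᶠ y in 𝓝 x, fderiv ℝ f (ψ y) u ≠ 0 :=
    ((h1 x (mem_chart_source ℂ x)).continuousAt.comp
      (ψ.continuousAt (mem_chart_source ℂ x))).eventually_ne hw
  refine ⟨_, inter_mem (chart_source_mem_nhds ℂ x) h3,
    VectorField.mpullback IC IC ψ fun z => (fderiv ℝ f z u)⁻¹ • u, fun y hy => ?_, fun y hy => ?_⟩
  · exact (ContMDiffAt.mpullback_vectorField_preimage (n := ∞)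
      (contMDiffAt_vectorSpace_iff_contDiffAt.2 (((h1 y hy.1).inv hy.2).smul contDiffAt_const))
      (ld_chart x hy.1).contMDiffAt
      ⟨(ld_chart x hy.1).mfderivToContinuousLinearEquiv (by simp), rfl⟩
      (by simp)).contMDiffWithinAt
  · have hi : (mfderiv IC IC ψ y).IsInvertible :=
      ⟨(ld_chart x hy.1).mfderivToContinuousLinearEquiv (by simp), rfl⟩
    have h4 : dc ψ y (VectorField.mpullback IC IC ψ (fun z => (fderiv ℝ f z u)⁻¹ • u) y) =
      (fderiv ℝ f (ψ y) u)⁻¹ • u := hi.self_apply_inverse _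
    exact (h2 y hy.1 _).trans ((congrArg _ h4).trans ((map_smul _ _ _).trans (inv_mul_cancel₀ hy.2)))

/-- a band of regular values with a field of unit rate -/
theorem exists_rate (hη : ContMDiff IC IR ∞ η) {a b : ℝ} (hab : a < b) :
    ∃ c δ, 0 < δ ∧ a < c - 2 * δ ∧ c + 2 * δ < b ∧ (∀ y, η y = c → dv η y ≠ 0) ∧
      ∃ v : (y : M) → TangentSpace IC y, Flo26.SmV IC v ∧
        ∀ y s, |η y - c| + |s| ≤ 2 * δ → η (Flo26.fl v s y) = η y + s := by
  obtain ⟨c, h1, h2⟩ := exists_reg isOpen_univ hη.contMDiffOn hab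
  have h3 : IsClosed {y | dv η y = 0} := isOpen_compl_iff.1 (isOpen_iff_mem_nhds.2 fun x hx => by
    obtain ⟨N, n1, V, -, n2⟩ := exists_unit hη hx
    filter_upwards [n1] with y hy (e : dv η y = 0)
    have := n2 y hy
    rw [e] at this
    exact zero_ne_one this)
  obtain ⟨r, r0, h4⟩ := Metric.isOpen_iff.1
    ((h3.isCompact.image hη.continuous).isClosed.isOpen_compl.inter isOpen_Ioo) c
    ⟨fun ⟨y, a1, a2⟩ => h2 y trivial a2 a1, h1⟩
  have h5 : ∀ t, |t - c| ≤ 2 * (r / 3) → t ∈ (η '' {y | dv η y = 0})ᶜ ∩ Ioo a b := fun t ht =>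
    h4 (by rw [Metric.mem_ball, Real.dist_eq]; linarith)
  obtain ⟨v, hv⟩ := exists_contMDiffSection_forall_mem_convex_of_local (n := (⊤ : ℕ∞)) IC
    (F_fiber := ℂ) (TangentSpace IC : M → Type)
    (fun y => dv η y ⁻¹' (Icc (-1) 1 ∩ {t | |η y - c| ≤ 2 * (r / 3) → t = 1}))
    (fun y => ((convex_Icc _ _).inter (by
      by_cases h : |η y - c| ≤ 2 * (r / 3) <;> simp [h, convex_univ])).linear_preimage
        (dv η y).toLinearMap)
    (fun x => by
      by_cases hx : dv η x = 0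
      · have a1 : 2 * (r / 3) < |η x - c| := not_le.1 fun h => (h5 _ h).1 ⟨x, hx, rfl⟩
        exact ⟨_, ((hη.continuous.sub continuous_const).abs.tendsto x).eventually (lt_mem_nhds a1),
          fun _ => 0, (Flo26.SmV.zero (I := IC)).contMDiffOn, fun y hy => by
            refine ⟨?_, fun e => absurd e (not_le.2 hy)⟩
            show dv η y (0 : ℂ) ∈ Icc (-1 : ℝ) 1
            simp⟩
      · obtain ⟨N, n1, V, n2, n3⟩ := exists_unit hη hx
        exact ⟨N, n1, V, n2, fun y hy =>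
          ⟨(n3 y hy).symm ▸ (by simp : (1 : ℝ) ∈ Icc (-1 : ℝ) 1), fun _ => n3 y hy⟩⟩)
  have sv : Flo26.SmV IC v := v.contMDiff
  have cp : Flo26.Cpl (I := IC) v := Flo26.complete_of_compactSpace sv
  have md : ∀ y, MDifferentiableAt IC IR η y := fun y => hη.mdifferentiableAt (by simp)
  refine ⟨c, r / 3, by linarith, (h5 _ (by rw [abs_le]; constructor <;> linarith)).2.1,
    (h5 _ (by rw [abs_le]; constructor <;> linarith)).2.2, fun y => h2 y trivial, v, sv,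
    fun y s hs => ?_⟩
  have d := fun t => Flo26.hasDerivAt_comp_fl sv (cp (t, y)) (md _)
  have := Flo26.comp_fl_eq sv (cp (s, y)) (f := η) (c := 1) fun t ht => ⟨md _, (hv _).2 ?_⟩
  · simpa using this
  · have a1 := convex_univ.norm_image_sub_le_of_norm_hasDerivWithin_le (C := 1)
      (fun t _ => (d t).hasDerivWithinAt) (fun t _ => abs_le.2 (hv _).1) (mem_univ 0) (mem_univ t)
    rw [Flo26.fl_zero sv, Real.norm_eq_abs, sub_zero, one_mul, Real.norm_eq_abs] at a1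
    have a2 : |t| ≤ |s| := by simpa using abs_sub_left_of_mem_uIcc ht
    linarith [abs_sub_le (η (Flo26.fl v t y)) (η y) c]

/-- **the band** -/
theorem exists_band (o : Or M) (hη : ContMDiff IC IR ∞ η) {a b : ℝ} (hab : a < b) :
    ∃ c δ, 0 < δ ∧ a < c - 2 * δ ∧ c + 2 * δ < b ∧ ∃ ρ : ℝ → ℝ, Monotone ρ ∧ (∀ r, |ρ r| < 2) ∧
      (∀ r, |r| ≤ 1 → ρ r = r) ∧ ∃ (ι : Type) (_ : Finite ι) (A : ι → ℂ → M),
      (∀ i, IsLocalDiffeomorph IC IC ∞ (A i) ∧ (∀ z w, A i z = A i w ↔ ∃ n : ℤ, w = z + n) ∧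
        ∀ z, η (A i z) = c + δ * ρ z.im) ∧
      (∀ i j, i ≠ j → Disjoint (range (A i)) (range (A j))) ∧
      ∀ y, |η y - c| ≤ δ → ∃ i z, A i z = y := by
  obtain ⟨c, δ, hδ, h1, h2, h3, v, hv, h4⟩ := exists_rate hη hab
  obtain ⟨ρ, r1, r2, r3⟩ := exists_squeeze (ε := 2) two_pos
  have r4 : StrictMono ρ := strictMono_of_deriv_pos fun x => (r1 x trivial).2
  have r5 : ContDiff ℝ ∞ ρ := contDiff_iff_contDiffAt.2 fun x => (r1 x trivial).1
  have r6 : ∀ r, |r| ≤ 1 → ρ r = r := fun r hr => r3 r (by linarith)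
  have cp : Flo26.Cpl (I := IC) v := Flo26.complete_of_compactSpace hv
  choose γ g1 g2 g3 using fun p : {y // η y = c} => exists_level o isOpen_univ hη.continuous
    hη.contMDiffOn (fun y e => ⟨trivial, h3 y e⟩) p.2
  let A : {y // η y = c} → ℂ → M := fun p z => Flo26.fl v (δ * ρ z.im) (γ p z.re)
  have a1 : ∀ p z, η (A p z) = c + δ * ρ z.im := fun p z => by
    rw [h4, g3]
    rw [g3, sub_self, abs_zero, zero_add, abs_mul, abs_of_pos hδ]
    nlinarith [r2 z.im]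
  have a2 : ∀ p q z w, A p z = A q w → z.im = w.im ∧ γ p z.re = γ q w.re := fun p q z w e => by
    have b : z.im = w.im := r4.injective (mul_left_cancel₀ hδ.ne'
      (add_left_cancel ((a1 p z).symm.trans (e ▸ a1 q w))))
    simp only [A, b] at e
    exact ⟨b, (Flo26.flD hv cp _).injective e⟩
  have a0 : ∀ p (t : ℝ), A p t = γ p t := fun p t => by simp [A, r6, Flo26.fl_zero hv]
  have a3 : ∀ p, IsLocalDiffeomorph IC IC ∞ (A p) := fun p z => by
    have s1 : ContMDiff IC IC ∞ (A p) :=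
      (cp.contMDiff hv).comp (f := fun z : ℂ => (δ * ρ z.im, γ p z.re))
        ((contDiff_const.mul (r5.comp imCLM.contDiff)).contMDiff.prodMk
          ((g1 p).sm.comp reCLM.contDiff.contMDiff))
    have d := s1.mdifferentiableAt (x := z) (by simp)
    refine Glue52.ld_of_injective_mfderiv rfl isOpen_univ (mem_univ z) s1.contMDiffOn
      ((injective_iff_map_eq_zero _).2 fun (u : ℂ) hu => ?_)
    have hu' : df (A p) z u = 0 := hu
    have b1 : HasFDerivAt (η ∘ A p) ((δ * deriv ρ z.im) • imCLM) z := by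
      rw [show η ∘ A p = fun z => c + δ * ρ z.im from funext (a1 p)]
      exact ((((r5.differentiable (by simp) z.im).hasDerivAt.const_mul δ).const_add c
        ).comp_hasFDerivAt z imCLM.hasFDerivAt :)
    have b2 : dv η (A p z) (df (A p) z u) = (δ * deriv ρ z.im) * u.im :=
      congrArg (fun L : ℂ →L[ℝ] ℝ => L u) (hasMFDerivAt_unique
        ((hη.mdifferentiableAt (by simp)).hasMFDerivAt.comp z d.hasMFDerivAt) b1.hasMFDerivAt)
    rw [hu', map_zero, eq_comm, mul_eq_zero] at b2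
    have b3 := b2.resolve_left (mul_pos hδ (r1 z.im trivial).2).ne'
    rw [lin_C', b3, ofReal_zero, zero_mul, add_zero, mul_eq_zero, ofReal_eq_zero] at hu'
    refine Complex.ext (hu'.resolve_right fun e => (g1 p).imm z.re ?_) b3
    have b4 := hasMFDerivAt_comp (f := A p) (c := fun t : ℝ => t + z.im * I) (t := z.re)
      (s1.mdifferentiableAt (by simp)) (ofRealCLM.hasDerivAt.add_const _)
    have b5 := ((Flo26.flD hv cp (δ * ρ z.im)).symm.contMDiff.mdifferentiableAt (by simp)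
      ).hasMFDerivAt.comp z.re b4
    rw [(b5.congr_of_eventuallyEq (f₁ := γ p) (Eventually.of_forall fun t => by
      simp only [comp_apply, A, add_im, ofReal_im, mul_im, ofReal_re, I_im, mul_one, I_re, mul_zero,
        add_zero, zero_add, add_re, mul_re, sub_self]
      exact ((Flo26.flD hv cp _).symm_apply_apply _).symm)).mfderiv]
    simp only [re_add_im, ofRealCLM_apply, ofReal_one, e]
    exact (congrArg _ (smul_zero (A := ℂ) (1 : ℝ))).trans
      (map_zero (mfderiv IC IC (Flo26.flD hv cp (δ * ρ z.im)).symm (A p (z.re + z.im * I))))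
  have a4 : ∀ p q x, x ∈ range (γ p) → x ∈ range (γ q) → range (γ q) ⊆ range (γ p) :=
    fun p q x b1 b2 => by
      have b3 : range (γ q) ∩ range (A p) ⊆ range (γ p) := by
        rintro _ ⟨⟨t, rfl⟩, z, e⟩
        exact ⟨_, (a2 p q z t (e.trans (a0 q t).symm)).2⟩
      have b4 : range (γ p) ⊆ range (A p) := by rintro _ ⟨t, rfl⟩; exact ⟨t, a0 p t⟩
      rcases isPreconnected_iff_subset_of_disjoint.1 (isPreconnected_range (g1 q).sm.continuous) _ _
        (a3 p).isOpen_range (cv_compact (g1 p)).isClosed.isOpen_compl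
        (fun y _ => (em _).imp (@b4 y) id) (eq_empty_of_forall_notMem fun y hy =>
          hy.2.2 (b3 ⟨hy.1, hy.2.1⟩)) with h | h
      · exact fun y hy => b3 ⟨hy, h hy⟩
      · exact absurd b1 (h b2)
  obtain ⟨s, hs⟩ := (isClosed_eq hη.continuous continuous_const).isCompact.elim_finite_subcover
    (fun p => range (A p)) (fun p => (a3 p).isOpen_range)
    fun y hy => mem_iUnion.2 ⟨⟨y, hy⟩, (0 : ℝ), (a0 _ 0).trans (g2 _)⟩
  have fin : (range fun p => range (γ p)).Finite := (s.finite_toSet.image fun p => range (γ p)).subset (by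
    rintro _ ⟨q, rfl⟩
    obtain ⟨p, hp, z, e⟩ := mem_iUnion₂.1 (hs q.2)
    have b : γ p z.re = γ q 0 := by
      simpa using (a2 p q z (0 : ℝ) (e.trans ((a0 q 0).trans (g2 q)).symm)).2
    exact ⟨p, hp, (a4 q p _ ⟨_, rfl⟩ ⟨_, b⟩).antisymm (a4 p q _ ⟨_, b⟩ ⟨_, rfl⟩)⟩)
  refine ⟨c, δ, hδ, h1, h2, ρ, r4.monotone, r2, r6, _, fin.to_subtype, fun C => A C.2.choose,
    fun C => ⟨a3 _, fun z w => ⟨fun e => ?_, ?_⟩, a1 _⟩, fun C D h => disjoint_left.2 ?_, fun y hy => ?_⟩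
  · obtain ⟨b1, b2⟩ := a2 _ _ z w e
    obtain ⟨n, hn⟩ := ((g1 _).inj _ _).1 b2
    exact ⟨n, Complex.ext (by simpa using hn) (by simpa using b1.symm)⟩
  · rintro ⟨n, rfl⟩
    simp [A, cv_per (g1 _)]
  · rintro _ ⟨z, rfl⟩ ⟨w, e⟩
    have b := (a2 _ _ _ _ e).2
    exact h (Subtype.ext (C.2.choose_spec.symm.trans (((a4 _ _ _ ⟨_, b⟩ ⟨_, rfl⟩).antisymm
      (a4 _ _ _ ⟨_, rfl⟩ ⟨_, b⟩)).trans D.2.choose_spec)))
  · have b1 : η (Flo26.fl v (-(η y - c)) y) = c := by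
      rw [h4 _ _ (by rw [abs_neg]; linarith)]; ring
    let C : range fun p => range (γ p) := ⟨_, ⟨_, b1⟩, rfl⟩
    obtain ⟨t, ht⟩ : Flo26.fl v (-(η y - c)) y ∈ range (γ C.2.choose) :=
      C.2.choose_spec.ge ⟨0, g2 ⟨_, b1⟩⟩
    refine ⟨C, t + ((η y - c) / δ : ℝ) * I, ?_⟩
    have b2 : ρ ((η y - c) / δ) = (η y - c) / δ :=
      r6 _ (by rwa [abs_div, abs_of_pos hδ, div_le_one hδ])
    simp only [A, add_im, ofReal_im, mul_im, ofReal_re, I_im, mul_one, I_re, mul_zero, add_zero,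
      zero_add, add_re, mul_re, sub_self, b2, ht]
    rw [mul_div_cancel₀ _ hδ.ne', ← cp.add hv, add_neg_cancel, Flo26.fl_zero hv]

end Crest.Agent.X212.Lev9
end
end

-- ▼ part X212/Lev9/Main
section

/-!
# Row 212, HEL / LEV (helper9): `LevStmt`
-/

set_option autoImplicit false
set_option linter.unusedSectionVars false
noncomputable section
open Set Filter Topology Function Complex
open scoped ContDiff Manifold

namespace Crest.Agent.X212.Lev9

open Crest.Agent.X212.Hel40 Crest.Agent.X212.Orx52 Crest.Agent.X212.Glue52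
open Crest.Agent.X212.Sep15 (CM)

theorem stp_lo {ε r : ℝ} (hε : 0 < ε) (h : r ≤ -ε) : stp ε r = 0 :=
  Real.smoothTransition.zero_of_nonpos (by
    have := (div_le_iff₀ hε).2 (show r ≤ -1 * ε by linarith)
    linarith)

theorem stp_hi {ε r : ℝ} (hε : 0 < ε) (h : ε ≤ r) : stp ε r = 1 :=
  Real.smoothTransition.one_of_one_le (by
    have := (le_div_iff₀ hε).2 (show 1 * ε ≤ r by linarith)
    linarith)

theorem exp_stp {ε r : ℝ} (hε : 0 < ε) (h : ε ≤ |r|) : Circle.exp (2 * Real.pi * stp ε r) = 1 := by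
  rcases le_abs'.1 h with a | a
  · simp [stp_lo hε a]
  · simp [stp_hi hε a]

theorem cd_stp (ε : ℝ) : ContDiff ℝ ∞ (stp ε) :=
  Real.smoothTransition.contDiff.comp (((contDiff_id.div_const ε).add contDiff_const).div_const 2)

theorem del_A {R : Type*} {A : ℂ → R} (h : ∀ z w, A z = A w ↔ ∃ n : ℤ, w = z + n) (ε : ℝ) (z : ℂ) :
    del A ε (A z) = Circle.exp (2 * Real.pi * stp ε z.im) := by
  have h1 : ∃ w, A w = A z := ⟨z, rfl⟩
  obtain ⟨n, hn⟩ := (h _ _).1 h1.choose_spec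
  rw [del, dif_pos h1, show z.im = h1.choose.im by simpa using congrArg im hn]

theorem del_off {R : Type*} {A : ℂ → R} (ε : ℝ) {x : R} (h : x ∉ range A) : del A ε x = 1 :=
  dif_neg h

theorem cd_arg {z : ℂ} (h : z ∈ slitPlane) : ContDiffAt ℝ ∞ arg z := by
  have := imCLM.contDiff.contDiffAt.comp z ((contDiffAt_log (n := ∞) h).restrict_scalars ℝ)
  exact this.congr_of_eventuallyEq (Eventually.of_forall fun w => (log_im w).symm)

/-- the angle minus the step is a smooth function on the circle -/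
theorem exists_log {c δ : ℝ} (hδ : 0 < δ) (h1 : -(1 / 2) < c - δ) (h2 : c + δ < 1 / 2) :
    ∃ l : Circle → ℝ, ContMDiff (𝓡 1) 𝓘(ℝ, ℝ) ∞ l ∧ ∀ u : Circle, u =
      (if (u : ℂ).re < 0 then Circle.exp (2 * Real.pi * stp δ (-(u : ℂ).im - c)) else 1) *
        Circle.exp (l u) := by
  let f : ℂ → ℝ := fun u => Real.pi + arg (-u) - 2 * Real.pi * stp δ (-u.im - c)
  refine ⟨fun u => if (u : ℂ).re < 0 then f u else arg u, fun u => ?_, fun u => ?_⟩
  · have c1 : Continuous fun u : Circle => (u : ℂ).re := by fun_prop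
    have c2 : Continuous fun u : Circle => (u : ℂ).im := by fun_prop
    by_cases hu : (u : ℂ).re < 0
    · have : ContDiffAt ℝ ∞ f u := (contDiffAt_const.add ((cd_arg (Or.inl (by simpa using hu))).comp _
        contDiff_neg.contDiffAt)).sub (contDiffAt_const.mul ((cd_stp δ).comp
          (imCLM.contDiff.neg.sub contDiff_const)).contDiffAt)
      refine (this.contMDiffAt.comp u (contMDiff_circle_coe u)).congr_of_eventuallyEq ?_
      filter_upwards [(c1.tendsto u).eventually (gt_mem_nhds hu)] with y hy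
      exact if_pos hy
    · have a : 0 < (u : ℂ).re ∨ 1 / 2 < |(u : ℂ).im| := (not_lt.1 hu).lt_or_eq.imp_right fun e => by
        have := Circle.normSq_coe u
        rw [normSq_apply, ← e, ← abs_mul_abs_self (u : ℂ).im] at this
        nlinarith [abs_nonneg (u : ℂ).im]
      refine ((cd_arg (a.imp_right fun b e => by norm_num [e] at b)).contMDiffAt.comp u
        (contMDiff_circle_coe u)).congr_of_eventuallyEq ?_
      filter_upwards [((isOpen_lt continuous_const c1).union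
        (isOpen_lt continuous_const c2.abs)).mem_nhds a] with y hy
      show _ = arg y
      split_ifs with b
      · rcases lt_abs.1 (show 1 / 2 < |(y : ℂ).im| from hy.resolve_left b.not_gt) with d | d
        · simp [f, arg_neg_eq_arg_sub_pi_of_im_pos (show 0 < (y : ℂ).im by linarith),
            stp_lo hδ (show -(y : ℂ).im - c ≤ -δ by linarith)]
        · simp only [f, arg_neg_eq_arg_add_pi_of_im_neg (show (y : ℂ).im < 0 by linarith),
            stp_hi hδ (show δ ≤ -(y : ℂ).im - c by linarith)]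
          ring
      · rfl
  · beta_reduce
    split_ifs with b
    · rw [← Circle.exp_add, add_sub_cancel, Circle.exp_add]
      have := Circle.exp_arg (Circle.exp Real.pi * u)
      rw [show ((Circle.exp Real.pi * u : Circle) : ℂ) = -u by simp] at this
      rw [this, ← mul_assoc, ← Circle.exp_add, ← two_mul, Circle.exp_two_pi, one_mul]
    · rw [one_mul, Circle.exp_arg]

/-- **LEV** -/
theorem lev : LevStmt := fun R oR W w ho _ hw h1 => by
  have s0 : ContMDiff (𝓡 2) 𝓘(ℝ, ℂ) ∞ fun x => (w x : ℂ) := contMDiff_circle_coe.comp hw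
  have s1 : ContMDiff Prf6.IC Prf6.IR ∞ fun x : Cp R => -(w (ofCp x) : ℂ).im :=
    (imCLM.contDiff.neg.contMDiff.comp s0).comp ld_ofCp.contMDiff
  obtain ⟨c, δ, hδ, c1, c2, ρ, r1, r2, r3, ι, _, B, b1, b2, b3⟩ :=
    exists_band (orOf (ori_oCp ho)) s1 (a := -(1 / 2)) (b := 1 / 2) (by norm_num)
  let A : ι → ℂ → R := fun i => ofCp ∘ B i
  have a1 : ∀ i, An' (A i) := fun i => ⟨fun z => ld_to.1 ((b1 i).1 z), (b1 i).2.1⟩
  have a2 : ∀ i z, -(w (A i z) : ℂ).im = c + δ * ρ z.im := fun i => (b1 i).2.2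
  have a3 : ∀ i z z', (w (A i z) : ℂ).re < 0 → (w (A i z') : ℂ).re < 0 := fun i z z' h => by
    by_contra b
    obtain ⟨y, hy⟩ := intermediate_value_univ z z' (f := fun z => (w (A i z) : ℂ).re)
      (continuous_re.comp (s0.continuous.comp (a1 i).1.contMDiff.continuous)) ⟨h.le, not_lt.1 b⟩
    have e1 := Circle.normSq_coe (w (A i y))
    have e2 := abs_lt.1 (r2 y.im)
    have e3 := a2 i y
    rw [normSq_apply, show (w (A i y) : ℂ).re = 0 from hy] at e1
    nlinarith [mul_lt_mul_of_pos_left e2.1 hδ, mul_lt_mul_of_pos_left e2.2 hδ]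
  have a4 : ∀ r, stp δ (δ * ρ r) = stp 1 r := fun r => by
    rcases le_total r (-1) with a | a
    · have := r1 a
      rw [r3 (-1) (by simp)] at this
      rw [stp_lo one_pos a, stp_lo hδ (by nlinarith)]
    rcases le_total 1 r with b | b
    · have := r1 b
      rw [r3 1 (by simp)] at this
      rw [stp_hi one_pos b, stp_hi hδ (by nlinarith)]
    · rw [r3 r (abs_le.2 ⟨a, b⟩), stp, stp, mul_div_cancel_left₀ _ hδ.ne', div_one]
  obtain ⟨m, ⟨e⟩⟩ := Finite.exists_equiv_fin {i // (w (A i 0) : ℂ).re < 0}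
  obtain ⟨l, l1, l2⟩ := exists_log (c := c) hδ (by linarith) (by linarith)
  have a5 : ∀ i j, i ≠ j → Disjoint (range (A (e.symm i))) (range (A (e.symm j))) := fun i j h =>
    b2 _ _ fun b => h (e.symm.injective (Subtype.ext b))
  refine ⟨m, fun i => A (e.symm i), fun i => ⟨a1 _, ?_⟩, a5, l ∘ w, l1.comp hw, fun x => ?_⟩
  · rintro _ ⟨z, rfl⟩
    by_contra b
    have := a3 _ 0 z (e.symm i).2
    norm_num [h1 _ b] at this
  · refine (l2 _).trans (congrArg (· * _) ?_)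
    rw [Finset.prod_apply]
    by_cases hx : ∃ i, x ∈ range (A (e.symm i))
    · obtain ⟨i, z, rfl⟩ := hx
      rw [Finset.prod_eq_single i (fun j _ h => del_off 1 (disjoint_right.1 (a5 j i h) ⟨z, rfl⟩))
        (by simp), del_A (a1 _).2, if_pos (a3 _ 0 z (e.symm i).2), a2, add_sub_cancel_left, a4]
    · rw [Finset.prod_eq_one fun i _ => del_off 1 fun b => hx ⟨i, b⟩]
      split_ifs with b
      · refine exp_stp hδ (not_lt.1 fun d => hx ?_)
        obtain ⟨i, z, hz⟩ := b3 (toCp x) d.le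
        have hz' : A i z = x := hz
        exact ⟨e ⟨i, a3 i z 0 (by rwa [hz'])⟩, z, by rwa [e.symm_apply_apply]⟩
      · rfl

end Crest.Agent.X212.Lev9
end
end

-- ▼ part X212/Lad50/Gen
section

/-!
# Row 212, HEL-GENUS (helper50): a handle column from the genus certificate
-/

set_option autoImplicit false
set_option linter.unusedSectionVars false

open Set Filter Topology Function Complex
open scoped ContDiff Manifold
open Crest.Agent.R208.F Crest.Agent.X212.Dr59 Crest.Agent.X212.Int54 Crest.Agent.X212.Cyl58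
open Crest.Agent.X212.Sep15 (EE IR CM Box)
open Crest.Agent.X212.Bb31 (Fm)
open Crest.Agent.X212.Flo26 (SmV fl)
open Crest.Agent.X212.Hel40

noncomputable section

namespace Crest.Agent.X212.Lad50.Gn

variable {Y : CM 3} {R : CM 2} {o : Fm 3 Y} {v : Vf Y} {Φ : Y → Circle} {M : Set Y}

theorem rnd {x δ : ℝ} {n : ℤ} (hδ : δ < 1 / 2) (h : |x - n| < δ) : round x = n :=
  round_eq_iff.2 ⟨by linarith [(abs_lt.1 h).1], by linarith [(abs_lt.1 h).2]⟩

/-- the handle chart of two plumbed annuli -/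
def hc (A B : ℂ → R) (δ : ℝ) (z : ℂ) : R :=
  if |z.im - round z.im| < δ then A (z - round z.im * I) else B (-I * (z - round z.re))

section hdl

variable {A B : ℂ → R} {δ : ℝ}

theorem An'.per (hA : An' A) (z : ℂ) (n : ℤ) : A (z + n) = A z := ((hA.2 _ _).2 ⟨n, rfl⟩).symm

theorem hc_H (h1 : δ < 1 / 2) {z : ℂ} {n : ℤ} (h : |z.im - n| < δ) : hc A B δ z = A (z - n * I) := by
  rw [hc, rnd h1 h, if_pos h]

theorem hc_V (hA : An' A) (hB : An' B) (h1 : δ < 1 / 2)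
    (box : ∀ z : ℂ, |z.re| < δ → |z.im| < δ → B z = A (I * z)) {z : ℂ} {m : ℤ}
    (h : |z.re - m| < δ) : hc A B δ z = B (-I * (z - m)) := by
  by_cases h' : |z.im - round z.im| < δ
  · rw [hc_H h1 h', ← An'.per hB _ (-round z.im), box _ (by simpa [← sub_eq_add_neg] using h')
      (by simpa [abs_sub_comm] using h), ← An'.per hA _ (-m)]
    congr 1
    push_cast
    linear_combination (z - m) * I_sq
  · rw [hc, if_neg h', rnd h1 h]

theorem hdl_hc (hA : An' A) (hB : An' B) (h0 : 0 < δ) (h1 : δ < 1 / 2)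
    (box : ∀ z : ℂ, |z.re| < δ → |z.im| < δ → B z = A (I * z))
    (only : ∀ z w : ℂ, |z.im| < δ → |w.im| < δ → A z = B w → ∃ m : ℤ, |w.re - m| < δ) :
    Hdl (hc A B δ) δ := by
  have eV := fun z m => hc_V hA hB h1 box (z := z) (m := m)
  have HV : ∀ (z w : ℂ) (n m : ℤ), |z.im - n| < δ → |w.re - m| < δ → hc A B δ z = hc A B δ w →
      ∃ k : ℤ, |w.im - k| < δ := fun z w n m hz hw e => by
    rw [hc_H h1 hz, eV w m hw] at e
    simpa using only _ _ (by simpa using hz) (by simpa [abs_sub_comm] using hw) e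
  have HH : ∀ (z w : ℂ) (n m : ℤ), |z.im - n| < δ → |w.im - m| < δ → hc A B δ z = hc A B δ w →
      Lat z w := fun z w n m hz hw e => by
    rw [hc_H h1 hz, hc_H h1 hw] at e
    obtain ⟨k, hk⟩ := (hA.2 _ _).1 e
    exact ⟨k, m - n, by push_cast; linear_combination hk⟩
  refine ⟨h0, h1, ?_, fun z hz w hw => ⟨fun e => ?_, ?_⟩⟩
  · rintro z (⟨m, h⟩ | ⟨n, h⟩)
    · refine ld_congr (ld_comp (hB.1 _) (Prf6.pm_affine (neg_ne_zero.2 I_ne_zero) (I * m) z).1) ?_
      filter_upwards [(continuous_re.sub continuous_const).abs.continuousAt.eventually_lt_const h]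
        with w hw
      rw [eV w m hw, comp_apply]; congr 1; ring
    · refine ld_congr (ld_comp (hA.1 _) (Prf6.pm_affine one_ne_zero (-(n * I)) z).1) ?_
      filter_upwards [(continuous_im.sub continuous_const).abs.continuousAt.eventually_lt_const h]
        with w hw
      rw [hc_H h1 hw, comp_apply]; congr 1; ring
  · rcases hz with ⟨m, hz⟩ | ⟨n, hz⟩ <;> rcases hw with ⟨m', hw⟩ | ⟨n', hw⟩
    · rw [eV z m hz, eV w m' hw] at e
      obtain ⟨k, hk⟩ := (hB.2 _ _).1 e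
      exact ⟨m' - m, k, by push_cast; linear_combination I * hk + (w - m' - z + m) * I_sq⟩
    · obtain ⟨k, hk⟩ := HV w z n' m hw hz e.symm
      exact HH z w k n' hk hw e
    · obtain ⟨k, hk⟩ := HV z w n m' hz hw e
      exact HH z w n k hz hk e
    · exact HH z w n n' hz hw e
  · rintro ⟨j, k, rfl⟩
    rcases hz with ⟨m, hz⟩ | ⟨n, hz⟩
    · rw [eV z m hz, eV _ (m + j) (by simpa using hz), ← An'.per hB _ k]
      congr 1
      push_cast
      linear_combination k * I_sq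
    · rw [hc_H h1 hz, hc_H h1 (n := n + k) (by simpa using hz), ← An'.per hA _ j]
      congr 1
      push_cast
      ring

end hdl

open Orx52 in
/-- a non-separating annulus lies in a handle -/
theorem handle {oR : Fm 2 R} (ho : Ori (𝓡 2) oR) {W : Set R} (hW : IsOpen W) {A : ℂ → R}
    (hA : An' A) (hAW : range A ⊆ W) (hn : IsPreconnected (W \ core A)) :
    ∃ e δ, Hdl e δ ∧ ∀ z, e z ∈ W := by
  have : Nonempty R := ⟨A 0⟩
  have key : ∀ A : ℂ → R, An' A → range A ⊆ W → IsPreconnected (W \ core A) →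
      Prf6.Pm Prf6.oC (sf ho).o (toCp ∘ A) 0 → ∃ e δ, Hdl e δ ∧ ∀ z, e z ∈ W := by
    intro A hA hAW hn hp
    have h1 : Prf6.An (sf ho).o (toCp ∘ A) := ⟨fun z => Prf6.pm_of_conn isPreconnected_univ
      (fun z _ => ld_to.2 (hA.1 z)) (mem_univ 0) (mem_univ z) hp, hA.2⟩
    obtain ⟨B, δ, hBW, h⟩ := Coc52.hd (X := sf ho) (U := W) hW h1
      ((Prf6.core_subset _).trans hAW) hn
    have hB : An' (ofCp ∘ B) := ⟨fun z => ld_to.1 (h.hB.1 z).1, h.hB.2⟩
    have box : ∀ z : ℂ, |z.re| < δ → |z.im| < δ → (ofCp ∘ B) z = A (I * z) := fun z h2 h3 => by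
      have := h.box 0 z h2 h3
      simp only [ofReal_zero, zero_add, ofReal_one, one_mul] at this
      exact this
    have l1 := min_le_left δ (1 / 4)
    refine ⟨hc A (ofCp ∘ B) (min δ (1 / 4)), _, hdl_hc hA hB (lt_min h.pos (by norm_num))
      ((min_le_right _ _).trans_lt (by norm_num))
      (fun z h2 h3 => box z (h2.trans_le l1) (h3.trans_le l1)) fun z w h2 h3 e => ?_, fun z => ?_⟩
    · obtain ⟨j, m, hm⟩ := h.only z w (h2.trans_le l1) (h3.trans_le l1) e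
      have b := box (w - m) (by simpa using hm) (by simpa using h3.trans_le l1)
      rw [← An'.per hB _ m, sub_add_cancel, ← e] at b
      have := h1.im_eq b
      exact ⟨m, by simpa [this] using h2⟩
    · unfold hc
      split_ifs
      exacts [hAW ⟨_, rfl⟩, hBW ⟨_, rfl⟩]
  rcases Mcg32.pm_or (o := (sf ho).o) (ld_to.2 (hA.1 0)) with h | h
  · exact key A hA hAW hn h
  · refine key (fun z => A (conjCLE z)) ⟨fun z => ld_comp (hA.1 _) (Glue52.ld_clm conjCLE z),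
      fun z w => (hA.2 _ _).trans (exists_congr fun n => ?_)⟩
      (fun _ ⟨z, hz⟩ => hAW ⟨_, hz⟩) (by simpa [Hel40.core] using hn) h
    rw [← (starRingEnd ℂ).injective.eq_iff]
    simp

/-- relative smoothing of a circle map -/
theorem smooth_circ {w : R → Circle} (hw : Continuous w) {L W : Set R} (hL : IsClosed L)
    (hW : IsOpen W) (hLW : L ⊆ W) (h1 : ∀ x ∉ L, w x = 1) :
    ∃ w' : R → Circle, SC w' ∧ (∀ x ∉ W, w' x = 1) ∧ ∃ l : R → ℝ, Continuous l ∧
      ∀ x, w x = w' x * Circle.exp (l x) := by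
  obtain ⟨g, h2, h3, -⟩ := Continuous.exists_contMDiff_approx_and_eqOn (𝓡 2) ⊤
    (f := fun x => (w x : ℂ)) (ε := fun _ => 1) (by fun_prop) continuous_const (fun _ => one_pos)
    hW.isClosed_compl (hL.isOpen_compl.mem_nhdsSet.2 (compl_subset_compl.2 hLW))
    ((contMDiffOn_const (c := (1 : ℂ))).congr fun x hx => by rw [h1 x hx, Circle.coe_one])
  have h4 : ∀ x, g x / w x ∈ slitPlane := fun x => by
    refine ball_one_subset_slitPlane (mem_ball_iff_norm.2 ?_)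
    rw [div_sub_one (w x).coe_ne_zero, norm_div, Circle.norm_coe, div_one, ← dist_eq_norm]
    exact h2 x
  have h5 : ∀ x, Glue52.dir (g x) = w x * Circle.exp (arg (g x / w x)) := fun x => by
    rw [← Glue52.dir_mul (norm_pos_iff.2 (slitPlane_ne_zero (h4 x))) (w x * _), Circle.coe_mul,
      Circle.coe_exp, mul_left_comm, norm_mul_exp_arg_mul_I, mul_div_cancel₀ _ (w x).coe_ne_zero]
  refine ⟨fun x => Glue52.dir (g x), fun x => (Glue52.contMDiffAt_dir fun h => ?_).comp x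
    (g.contMDiff x), fun x hx => ?_, fun x => -arg (g x / w x),
    continuous_iff_continuousAt.2 fun x => ((continuousAt_arg (h4 x)).comp
      (f := fun x => g x / w x) (g.contMDiff.continuous.continuousAt.div (by fun_prop)
        (w x).coe_ne_zero)).neg, fun x => by simp only [h5, Circle.exp_neg, mul_inv_cancel_right]⟩
  · exact slitPlane_ne_zero (h4 x) (by rw [h, zero_div])
  · beta_reduce
    rw [h5, h3 hx, div_self (w x).coe_ne_zero, arg_one, Circle.exp_zero, mul_one]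
    exact h1 x fun h => hx (hLW h)

/-- a compactly supported class on a connected open set gives a handle -/
theorem handle_of {oR : Fm 2 R} (ho : Ori (𝓡 2) oR) {w : R → Circle} (hw : Continuous w)
    {L W : Set R} (hL : IsClosed L) (hW : IsOpen W) (hc : IsPreconnected W) (hLW : L ⊆ W)
    (h1 : ∀ x ∉ L, w x = 1) (hn : ¬ Lifts w W) : ∃ e δ, Hdl e δ ∧ ∀ z, e z ∈ W := by
  obtain ⟨w', h2, h3, l, h4, h5⟩ := smooth_circ hw hL hW hLW h1
  obtain ⟨m, A, h6, -, l', h7, h8⟩ := Lev9.lev R oR W w' ho hW h2 h3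
  obtain ⟨i, hi⟩ : ∃ i, ¬ Lifts (del (A i) 1) W := by
    by_contra! h
    choose k k1 k2 using h
    refine hn ⟨fun x => ∑ i, k i x + l' x + l x, ((continuousOn_finsetSum _ fun i _ => k1 i).add
      h7.continuous.continuousOn).add h4.continuousOn, fun x hx => ?_⟩
    rw [h5, h8, Circle.exp_add, Circle.exp_add, Finset.prod_apply, Finset.prod_congr rfl
      fun i _ => k2 i x hx]
    congr 2
    exact (map_sum Circle.expHom _ _).symm
  exact handle ho hW (h6 i).1 (h6 i).2 ((Hd34.delStmt R (A i) 1 (h6 i).1 one_pos).2.2.2.2.2 W hW hc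
    ((image_subset_range _ _).trans (h6 i).2) hi)

/-- the part of FOOT that is used -/
def Foot : Prop := ∀ (Y : CM 3) (R : CM 2) (o : Fm 3 Y) (v : Vf Y) (Φ : Y → Circle) (M : Set Y)
  (oR : Fm 2 R) (b : R × ℝ → Y), Bas o v Φ M → Bx o v Φ oR b → Nonempty R →
  ∃ F f π, Ft v Φ M b 1 F f π

theorem cay_one : cay 1 = Circle.exp (-(Real.pi / 2)) :=
  Circle.exp_eq_exp.2 ⟨1, by rw [Real.arctan_one]; push_cast; ring⟩

/-- **GENUS** -/
theorem genus (hX : BoxStmt) (hF : Foot) : GenusStmt := by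
  classical
  intro Y o v Φ M V w L hB hC
  have hv := hB.smv
  have hΦ := hB.smΦ
  obtain ⟨N, hN, hVN⟩ := hC.op
  have hV : V ⊆ PP Φ M := hVN ▸ inter_subset_left
  obtain ⟨R, oR, b, hb⟩ := hX Y o v Φ hB.ori hv hΦ fun y h => hB.pos y fun h' => h (hB.one y h')
  have hpi := Real.pi_gt_three
  have hR : Nonempty R := by
    obtain ⟨y, hy⟩ : V.Nonempty := nonempty_iff_ne_empty.2 fun h => hC.nl (by
      rw [h]; exact ⟨fun _ => 0, continuousOn_const, fun _ h => h.elim⟩)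
    have h1 : |(1 : ℝ)| < 2 * Real.pi := by rw [abs_one]; linarith
    obtain ⟨t, ht⟩ := ag_surj hB (hV hy) h1
    obtain ⟨p, -⟩ : fl v t y ∈ range b := by
      rw [hb.rg, mem_ofPred_eq, phi_fl hv hΦ, (hV hy).1, one_mul, ht]
      exact exp_ne one_ne_zero h1
    exact ⟨p.1⟩
  obtain ⟨F, f, π, H⟩ := hF Y R o v Φ M oR b hB hb hR
  have hPc : PP Φ M ⊆ col v Φ (PP Φ M) := fun y hy => ⟨0, by rwa [Flo26.fl_zero hv], fun t ht => by
    rw [uIcc_self, mem_singleton_iff] at ht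
    rw [ht, Flo26.fl_zero hv, hy.1]; norm_num⟩
  have hfc : ContinuousOn f V := H.sm.continuousOn.mono (hV.trans hPc)
  set W := F ∩ π ⁻¹' N with hWd
  have hW : IsOpen W := H.cont.isOpen_inter_preimage H.op hN
  have hπ : MapsTo π W V := fun x hx => hVN ▸ ⟨H.maps' hx.1, hx.2⟩
  have hf : MapsTo f V W := fun y hy => ⟨H.maps (hPc (hV hy)), by
    rw [mem_preimage, H.right y (hV hy)]; exact (hVN ▸ hy : y ∈ PP Φ M ∩ N).2⟩
  have hWc : IsPreconnected W := by
    rw [show W = f '' V from Subset.antisymm (fun x hx => ⟨_, hπ hx, H.left x hx.1⟩) hf.image_subset]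
    exact hC.conn.image f hfc
  have hL : IsClosed (f '' L) := (hC.cpt.image_of_continuousOn (hfc.mono hC.sub)).isClosed
  have hLW : f '' L ⊆ W := (hf.mono_left hC.sub).image_subset
  set w' : R → Circle := fun x => if x ∈ W then w (π x) else 1 with hw'
  have h1 : ∀ x ∉ f '' L, w' x = 1 := fun x hx => by
    simp only [hw']
    split_ifs with h
    exacts [hC.off _ (hπ h) fun h' => hx ⟨_, h', H.left x h.1⟩, rfl]
  have h2 : Continuous w' := continuous_iff_continuousAt.2 fun x => by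
    by_cases h : x ∈ W
    · exact ((hC.cont.comp (H.cont.mono inter_subset_left) hπ).continuousAt (hW.mem_nhds h)).congr
        ((hW.eventually_mem h).mono fun y hy => (if_pos hy).symm)
    · exact (continuousAt_const (y := (1 : Circle))).congr ((hL.isOpen_compl.eventually_mem
        fun h' => h (hLW h')).mono fun y hy => (h1 y hy).symm)
  obtain ⟨e, δ, he, heW⟩ := handle_of hb.ori h2 hL hW hWc hLW h1 fun ⟨l, l1, l2⟩ =>
    hC.nl ⟨l ∘ f, l1.comp hfc hf, fun y hy => by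
      rw [comp_apply, ← l2 _ (hf hy)]
      simp only [hw']
      rw [if_pos (hf hy), H.right y (hV hy)]⟩
  refine ⟨δ, col_of hB hV hC.ret he.pos he.lt (P := fun z => b (e z, 1)) (c := -(Real.pi / 2))
    (fun z hz => ?_) (fun z => (hb.ang _).trans cay_one) (cay_one ▸ cay_ne_one 1)
    (fun z hz w hw => by rw [hb.box.inj.eq_iff, ← he.eq z hz w hw]; simp) fun z _ => ?_⟩
  · have hQ : IsLocalDiffeomorphAt ICR (𝓡 3) ∞ (b ∘ Prod.map e id) (z, 1) :=
      ld_comp (hb.box.loc _) (ld_prodMap (he.ld z hz) (ld_id 1))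
    refine ⟨hQ.contMDiffAt.comp (f := fun z : ℂ => (z, (1 : ℝ))) z
      (contMDiffAt_id.prodMk contMDiffAt_const), (injective_iff_map_eq_zero _).2 fun ζ h => ?_⟩
    have h3 := mf_prod (hQ.mdifferentiableAt (by simp)) ζ 0
    rw [map_zero, add_zero] at h3
    exact congrArg Prod.fst ((injective_iff_map_eq_zero _).1 (mf_inj hQ) _ (h3.trans h))
  · have h3 := (H.mem (e z) 1 (by norm_num)).2 (heW z).1
    obtain ⟨T, h4, h5⟩ := id h3
    have h6 := (H.flow _ h3 T h5).2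
    rw [H.box _ 1 (by norm_num)] at h6
    refine ⟨T, by rw [← H.right _ h4, h6]; exact hπ (heW z), ?_⟩
    set a : ℝ → ℝ := fun t => -(Real.pi / 2) + ag Φ v (b (e z, 1)) t with ha
    have h7 : ∀ t, Φ (fl v t (b (e z, 1))) = Circle.exp (a t) := fun t => by
      rw [phi_fl hv hΦ, hb.ang, cay_one, ← Circle.exp_add]
    have h8 := intermediate_value_uIcc (a := 0) (b := T) (f := a) fun t _ =>
      ((hasDerivAt_ag hv hΦ _ t).const_add _).continuousAt.continuousWithinAt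
    have h9 : a 0 = -(Real.pi / 2) := by simp [ha, ag_zero]
    change a T = 0
    by_contra h
    refine exp_ne h (not_le.1 fun h' => ?_) ((h7 T).symm.trans h4.1)
    rcases le_abs.1 h' with h' | h'
    · obtain ⟨t, ht, e⟩ := h8 (show Real.pi ∈ uIcc (a 0) (a T) from
        mem_uIcc_of_le (by linarith) (by linarith))
      exact h5 t ht (by rw [h7, e]; simp)
    · obtain ⟨t, ht, e⟩ := h8 (show -Real.pi ∈ uIcc (a 0) (a T) from
        mem_uIcc_of_ge (by linarith) (by linarith))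
      exact h5 t ht (by rw [h7, e]; simp)

end Crest.Agent.X212.Lad50.Gn
end
end

-- ▼ part X212/Sm10/Hd2
section

/-!
# X212 / Sm10 (helper10): HEL-HD2, handle charts and plumbed annuli
-/

set_option autoImplicit false
set_option linter.unusedSectionVars false

open Set Filter Topology Function Complex
open scoped ContDiff Manifold
open Crest.Agent.X212.Dr59 Crest.Agent.X212.Int54 Crest.Agent.X212.Cyl58
open Crest.Agent.X212.Sep15 (CM)
open Crest.Agent.X212.Bb31 (Fm)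
open Crest.Agent.X212.Hel40 Crest.Agent.X212.Orx52

noncomputable section

namespace Crest.Agent.X212.Sm10

variable {R : CM 2} {o : Fm 2 R} {A B e : ℂ → R} {δ δ' : ℝ} {σ : ℝ → ℝ}

theorem an' (h : H7.An o A) : An' A := ⟨h.ld, h.per⟩

theorem an_of (ho : Ori (𝓡 2) o) (hA : An' A) (hp : Orx52.Pos Prf6.IC (𝓡 2) A {0} oZ o) :
    H7.An o A := by
  have : Nonempty R := ⟨A 0⟩
  exact ⟨hA.1, fun z _ => ((pm_C_iff ho).1 (Prf6.pm_of_conn isPreconnected_univ
    (fun z _ => ld_to.2 (hA.1 z)) (mem_univ 0) (mem_univ z)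
    ((pm_C_iff ho).2 ⟨hA.1 0, hp⟩))).2 z rfl, hA.2⟩

/-- reflection in the imaginary axis -/
def rf : ℂ ≃L[ℝ] ℂ := conjCLE.trans (ContinuousLinearEquiv.neg ℝ)

theorem rf_apply (z : ℂ) : rf z = -(starRingEnd ℂ) z := rfl
@[simp] theorem rf_re (z : ℂ) : (rf z).re = -z.re := by simp [rf_apply]
@[simp] theorem rf_im (z : ℂ) : (rf z).im = z.im := by simp [rf_apply]

theorem an'_rf (hA : An' A) : An' (A ∘ rf) :=
  ⟨fun z => ld_comp (hA.1 _) (Glue52.ld_clm rf z), fun z w => (hA.2 _ _).trans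
    ⟨fun ⟨n, h⟩ => ⟨-n, by simpa [Complex.ext_iff, neg_eq_iff_eq_neg, add_comm] using h⟩,
      fun ⟨n, h⟩ => ⟨-n, by simp [h, Complex.ext_iff, add_comm]⟩⟩⟩

/-- an annulus chart is positive up to a reflection which keeps the height -/
theorem an_or (ho : Ori (𝓡 2) o) (hA : An' A) : H7.An o A ∨ H7.An o (A ∘ rf) := by
  have : Nonempty R := ⟨A 0⟩
  refine (Mcg32.pm_or (o := (sf ho).o) (ld_to.2 (hA.1 0))).imp
    (fun h => an_of ho hA ((pm_C_iff ho).1 h).2) fun h => an_of ho (an'_rf hA) ((pm_C_iff ho).1 ?_).2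
  have k := Prf6.pm_affine (neg_ne_zero.2 one_ne_zero) 0 0
  refine (Prf6.Pm.comp (f := fun w => 0 + -1 * w) (by rw [mul_zero, add_zero]; exact h) k).congr
    (Eventually.of_forall fun z => ?_)
  simp [rf_apply]

theorem hdl_lin (h : Hdl e δ) (L : ℂ ≃L[ℝ] ℂ) (h1 : ∀ z ∈ Xo δ, L z ∈ Xo δ)
    (h2 : ∀ z w, Lat (L z) (L w) ↔ Lat z w) : Hdl (e ∘ L) δ :=
  ⟨h.pos, h.lt, fun z hz => ld_comp (h.ld _ (h1 z hz)) (Glue52.ld_clm L z),
    fun z hz w hw => (h.eq _ (h1 z hz) _ (h1 w hw)).trans (h2 z w)⟩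

theorem lat_iff {z w : ℂ} : Lat z w ↔ (∃ m : ℤ, w.re = z.re + m) ∧ ∃ n : ℤ, w.im = z.im + n :=
  ⟨fun ⟨m, n, h⟩ => ⟨⟨m, by simp [h]⟩, n, by simp [h]⟩,
    fun ⟨⟨m, h⟩, n, k⟩ => ⟨m, n, by simp [Complex.ext_iff, h, k]⟩⟩

theorem ex_neg {x y : ℝ} : (∃ m : ℤ, -x = -y + m) ↔ ∃ m : ℤ, x = y + m :=
  ⟨fun ⟨m, h⟩ => ⟨-m, by push_cast; linarith⟩, fun ⟨m, h⟩ => ⟨-m, by push_cast; linarith⟩⟩

theorem abs_neg_int {x : ℝ} {n : ℤ} : |-x - (-n : ℤ)| = |x - n| := by
  rw [← abs_neg]; push_cast; ring_nf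

theorem hdl_rf (h : Hdl e δ) : Hdl (e ∘ rf) δ :=
  hdl_lin h rf (fun z hz => hz.imp (fun ⟨n, k⟩ => ⟨-n, by rwa [rf_re, abs_neg_int]⟩) fun ⟨n, k⟩ =>
    ⟨n, by rwa [rf_im]⟩) fun z w => by simp only [lat_iff, rf_re, rf_im, ex_neg]

/-- the quarter turn -/
def qt : ℂ ≃L[ℝ] ℂ := (rotation ⟨I, by simp [Submonoid.unitSphere]⟩).toContinuousLinearEquiv

theorem qt_apply (z : ℂ) : qt z = I * z := rfl

theorem hdl_qt (h : Hdl e δ) : Hdl (e ∘ qt) δ :=
  hdl_lin h qt (fun z hz => (hz.imp (fun ⟨n, k⟩ => ⟨n, by simpa [qt_apply] using k⟩) fun ⟨n, k⟩ =>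
    ⟨-n, by rw [← abs_neg_int] at k; simpa [qt_apply] using k⟩).symm) fun z w => by
      simp [lat_iff, qt_apply, ex_neg, and_comm]

theorem ld_sq (hσ : Sq δ' σ) (z : ℂ) :
    Prf6.Pm Prf6.oC Prf6.oC (fun z : ℂ => (z.re + σ z.im * I : ℂ)) z := by
  have h1 := hσ.sm
  refine Prf6.pm_C isOpen_univ (mem_univ z) (ContDiff.contDiffOn (by
    exact (ofRealCLM.contDiff.comp reCLM.contDiff).add
      ((ofRealCLM.contDiff.comp (h1.comp imCLM.contDiff)).mul contDiff_const))) ?_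
  have := (ofRealCLM.hasFDerivAt.comp z reCLM.hasFDerivAt).add
    ((ofRealCLM.hasFDerivAt.comp z ((h1.differentiable (by simp) z.im).hasDerivAt.hasFDerivAt.comp z
      imCLM.hasFDerivAt)).mul_const I)
  rw [show fderiv ℝ (fun z : ℂ => (z.re + σ z.im * I : ℂ)) z = _ from this.fderiv, Prf6.det_C]
  simpa using hσ.pos z.im

theorem sq_mem (hσ : Sq δ' σ) (z : ℂ) : (z.re + σ z.im * I : ℂ) ∈ Xc δ' :=
  Or.inr ⟨0, by simpa using (hσ.lt _).le⟩

theorem an'_hA (h : Hdl e δ) (hσ : Sq δ' σ) (hδ : δ' ≤ δ) : An' (hA e σ) := by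
  have m : ∀ z : ℂ, (z.re + σ z.im * I : ℂ) ∈ Xo δ := fun z =>
    Or.inr ⟨0, by simpa using (hσ.lt _).trans_le hδ⟩
  refine ⟨fun z => ld_comp (h.ld _ (m z)) (ld_sq hσ z).1, fun z w => (h.eq _ (m z) _ (m w)).trans ?_⟩
  rw [lat_iff]
  simp only [add_re, ofReal_re, mul_re, I_re, mul_zero, ofReal_im, I_im, mul_one, sub_self, add_zero,
    add_im, mul_im, zero_add]
  refine ⟨fun ⟨⟨m, h1⟩, n, h2⟩ => ⟨m, Complex.ext (by simpa using h1) ?_⟩, fun ⟨n, k⟩ =>
    ⟨⟨n, by simp [k]⟩, 0, by simp [k]⟩⟩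
  have a := abs_lt.1 (hσ.lt z.im)
  have b := abs_lt.1 (hσ.lt w.im)
  have : |n| < 1 := by
    rw [← @Int.cast_lt ℝ, Int.cast_abs, Int.cast_one, abs_lt]
    constructor <;> linarith [h.lt]
  rw [Int.abs_lt_one_iff.1 this, Int.cast_zero, add_zero] at h2
  simpa using (strictMono_of_deriv_pos hσ.pos).injective h2

theorem hd_of_an (ho : Ori (𝓡 2) o) (h : Hdl e δ) (hσ : Sq δ' σ) (h0 : 0 < δ') (hδ : δ' ≤ δ)
    (hp : H7.An o (hA e σ)) : H7.Hd o (hA e σ) (hA (e ∘ qt) σ) (δ' / 2) := by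
  have : Nonempty R := ⟨e 0⟩
  have eq : ∀ (e : ℂ → R) (z : ℂ), |z.im| < δ' / 2 → hA e σ z = e z := fun e z hz => by
    rw [hA, hσ.id _ hz.le, re_add_im]
  have box : ∀ z : ℂ, |z.re| < δ' / 2 → |z.im| < δ' / 2 → hA (e ∘ qt) σ z = hA e σ (I * z) :=
    fun z h1 h2 => by rw [eq _ _ h2, eq _ _ (by simpa using h1)]; rfl
  refine ⟨hp, an_of ho (an'_hA (hdl_qt h) hσ hδ) ((pm_C_iff ho).1 ?_).2, half_pos h0,
    by linarith [h.lt], box, fun z w h1 h2 k => ?_⟩
  · refine (Prf6.Pm.comp (f := fun w => 0 + I * w) ((pm_C_iff ho).2 ⟨hp.ld _, fun y _ => hp.pos y trivial⟩)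
      (Prf6.pm_affine I_ne_zero 0 0)).congr ?_
    filter_upwards [continuous_re.abs.continuousAt.eventually_lt_const
      (show |(0 : ℂ).re| < δ' / 2 by simpa using h0), continuous_im.abs.continuousAt.eventually_lt_const
      (show |(0 : ℂ).im| < δ' / 2 by simpa using h0)] with z h1 h2
    rw [comp_apply, box z h1 h2, comp_apply, comp_apply, zero_add]
  · rw [eq _ _ h1, eq _ _ h2] at k
    obtain ⟨n, hn⟩ := (lat_iff.1 ((h.eq z (Or.inr ⟨0, by simpa using by linarith⟩) (I * w)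
      (Or.inl ⟨0, by simpa using by linarith⟩)).1 k)).2
    exact ⟨n, by rwa [show w.re - n = z.im by simpa [sub_eq_iff_eq_add] using hn]⟩

theorem hA_rf (e : ℂ → R) (σ : ℝ → ℝ) : hA (e ∘ rf) σ = hA e σ ∘ rf := funext fun z =>
  congrArg e (by simp [Complex.ext_iff])

theorem range_hA (hσ : Sq δ' σ) (L : ℂ → ℂ) (hL : MapsTo L (Xc δ') (Xc δ')) :
    range (hA (e ∘ L) σ) ⊆ e '' Xc δ' := by
  rintro _ ⟨z, rfl⟩
  exact ⟨_, hL (sq_mem hσ z), rfl⟩

theorem xc_rf : MapsTo rf (Xc δ) (Xc δ) := fun _ hz =>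
  hz.imp (fun ⟨n, k⟩ => ⟨-n, by rwa [rf_re, abs_neg_int]⟩) fun ⟨n, k⟩ => ⟨n, by rwa [rf_im]⟩

theorem xc_qt : MapsTo qt (Xc δ) (Xc δ) := fun _ hz =>
  (hz.imp (fun ⟨n, k⟩ => ⟨n, by simpa [qt_apply] using k⟩) fun ⟨n, k⟩ =>
    ⟨-n, by rw [← abs_neg_int] at k; simpa [qt_apply] using k⟩).symm

/-- **HD 2**: a handle chart gives two plumbed positive annuli -/
theorem hd_of_hdl (ho : Ori (𝓡 2) o) (h : Hdl e δ) (hσ : Sq δ' σ) (h0 : 0 < δ') (hδ : δ' ≤ δ) :
    ∃ A B, (A = hA e σ ∨ A = hA e σ ∘ rf) ∧ H7.Hd o A B (δ' / 2) ∧ range A ⊆ e '' Xc δ' ∧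
      range B ⊆ e '' Xc δ' := by
  rcases an_or ho (an'_hA h hσ hδ) with k | k
  · exact ⟨_, _, Or.inl rfl, hd_of_an ho h hσ h0 hδ k, range_hA hσ id (mapsTo_id _),
      range_hA hσ qt xc_qt⟩
  · exact ⟨_, _, Or.inr (hA_rf e σ), hd_of_an ho (hdl_rf h) hσ h0 hδ (hA_rf e σ ▸ k),
      range_hA hσ rf xc_rf, range_hA hσ (rf ∘ qt) (xc_rf.comp xc_qt)⟩

theorem core_rf (A : ℂ → R) : core (A ∘ rf) = core A := by
  ext x
  constructor <;> rintro ⟨t, rfl⟩ <;> exact ⟨-t, by simp [rf_apply]⟩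

theorem range_rf (A : ℂ → R) : range (A ∘ rf) = range A := rf.surjective.range_comp A

theorem band_rf (A : ℂ → R) (p : ℝ → Prop) : (A ∘ rf) '' {z | p z.im} = A '' {z | p z.im} := by
  ext x
  constructor <;> rintro ⟨z, hz, rfl⟩ <;> exact ⟨rf z, by simpa using hz, by simp [rf_apply]⟩

theorem del_rf (hA : An' A) (ε : ℝ) : del (A ∘ rf) ε = del A ε := funext fun x => by
  by_cases h : ∃ z, (A ∘ rf) z = x
  · obtain ⟨z, rfl⟩ := h
    rw [Hd34.del_app (an'_rf hA), comp_apply, Hd34.del_app hA, rf_im]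
  · rw [del, del, dif_neg h, dif_neg fun ⟨z, k⟩ => h ⟨rf.symm z, by
      rw [comp_apply, rf.apply_symm_apply, k]⟩]

/-- two plumbed annuli give a handle chart -/
theorem hdl_of_hd (h : H7.Hd o A B δ) (h0 : 0 < δ') (h1 : δ' ≤ δ) (h2 : δ' < 1 / 2) :
    ∃ e, Hdl e δ' ∧ (∀ z : ℂ, |z.im| < δ' → e z = A z) ∧
      (∀ z : ℂ, |z.re| < δ' → e z = B (-I * z)) ∧ ∀ z, e z ∈ range A ∪ range B := by
  have box := fun z (a : |z.re| < δ') (b : |z.im| < δ') => h.box z (a.trans_le h1) (b.trans_le h1)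
  refine ⟨Lad50.Gn.hc A B δ', Lad50.Gn.hdl_hc (an' h.hA) (an' h.hB) h0 h2 box fun z w a b k => ?_,
    fun z hz => ?_, fun z hz => ?_, fun z => ?_⟩
  · obtain ⟨m, hm⟩ := h.only z w (a.trans_le h1) (b.trans_le h1) k
    have c := h.box (w - m) (by simpa using hm) (by simpa using b.trans_le h1)
    rw [← Lad50.Gn.An'.per (an' h.hB) _ m, sub_add_cancel, ← k] at c
    obtain ⟨n, hn⟩ := (h.hA.per _ _).1 c
    exact ⟨m, by rwa [show w.re - m = z.im by simpa using congrArg im hn]⟩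
  · simpa using Lad50.Gn.hc_H (A := A) (B := B) h2 (z := z) (n := 0) (by simpa using hz)
  · simpa using Lad50.Gn.hc_V (an' h.hA) (an' h.hB) h2 box (z := z) (m := 0) (by simpa using hz)
  · unfold Lad50.Gn.hc
    split_ifs
    exacts [Or.inl ⟨_, rfl⟩, Or.inr ⟨_, rfl⟩]

end Crest.Agent.X212.Sm10
end
end

-- ▼ part X212/Hel40/Twr
section

/-!
# X212/Hel40/Twr (helper40): the tower `Tw` (output of HEL) and the leaves which use `H7/K`
-/

set_option autoImplicit false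
set_option linter.unusedSectionVars false

open Set Filter Topology Function
open scoped ContDiff Manifold
open Crest.Agent.R208.F Crest.Agent.X212.Dr59 Crest.Agent.X212.Int54 Crest.Agent.X212.Cyl58
open Crest.Agent.X212.Sep15 (EE IR CM Box slab px Rg)
open Crest.Agent.X212.Bb31 (Fm Cy Df Pos)
open Crest.Agent.X212.Flo26 (SmV fl)
open Crest.Agent.X212.H7 (KK An NS Hd G3)

noncomputable section

namespace Crest.Agent.X212.Hel40

variable {Y Y' : CM 3} {R : CM 2}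

/-- the data of a step: `Y'` is the next level -/
structure TS (o : Fm 3 Y) (U : Set Y) (Φ : Y → Circle) (o' : Fm 3 Y') (U' : Set Y')
    (Φ' : Y' → Circle) (oR : Fm 2 R) {b : R × ℝ → Y} {b' : R × ℝ → Y'} {h : Df R}
    (G : Rg b h b') : Prop where
  ori : Ori (𝓡 3) o
  ori' : Ori (𝓡 3) o'
  oriR : Ori (𝓡 2) oR
  conn : IsConnected (univ : Set R)
  cy : Cy oR o b
  cy' : Cy oR o' b'
  same : SameOn (pm (𝓡 3) (𝓡 3) G.φ o') o G.φ.source
  kk : KK oR h
  sm : SC Φ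
  sm' : SC Φ'
  op : IsOpen U
  op' : IsOpen U'
  box : ∀ p, Φ (b p) = cay p.2
  hel : ∃ (k : ℕ) (A B : ℂ → R) (δ ε : ℝ), 0 < k ∧ Hd oR A B δ ∧ 0 < ε ∧ ε < δ ∧
    ∀ p : R × ℝ, |p.2| < 3 → Φ' (b' p) = cay p.2 ^ k * del A ε p.1
  sl' : slab b' (Icc (-2) 2) ⊆ U'
  sl : slab b (Ioo (-1) 1) ⊆ U
  rest : ∀ y ∈ U, y ∉ slab b (Ioo (-1) 1) → G.φ y ∈ U' ∧
    ∃ f > (0 : ℝ), dl (𝓡 3) (Φ' ∘ G.φ) y = f • dl (𝓡 3) Φ y
  clm : ∃ D c e₁ e₂, Clm b' U' Φ' D c e₁ e₂

/-- **the tower** (the output) -/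
inductive Tw : (Y : CM 3) → Fm 3 Y → Set Y → (Y → Circle) → Prop
  | base {Y Y₀ : CM 3} {R : CM 2} {o : Fm 3 Y} {Φ : Y → Circle} {oR : Fm 2 R}
      {f : (R × Circle) ≃ₘ^∞⟮(𝓡 2).prod (𝓡 1), 𝓡 3⟯ Y₀} {b₀ : R × ℝ → Y₀} {b : R × ℝ → Y}
      {g : Df R} {G : Rg b₀ g b} (h : TB o Φ oR f G) (hk : KK oR g) {U : Set Y} (hU : IsOpen U) :
      Tw Y o U Φ
  | step {Y Y' : CM 3} {R : CM 2} {o : Fm 3 Y} {U : Set Y} {Φ : Y → Circle} {o' : Fm 3 Y'}
      {U' : Set Y'} {Φ' : Y' → Circle} {oR : Fm 2 R} {b : R × ℝ → Y} {b' : R × ℝ → Y'} {h : Df R}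
      {G : Rg b h b'} (hs : TS o U Φ o' U' Φ' oR G) (ih : Tw Y' o' U' Φ') : Tw Y o U Φ

/-- the goal of the package -/
def HelStmt : Prop := ∀ (Y : CM 3) (o : Fm 3 Y) (Φ : Y → Circle), SmH o Φ → Tw Y o (Mid Φ) Φ

/-- SINGLE: one annulus is enough -/
def SingleStmt : Prop := ∀ (R : CM 2) (oR : Fm 2 R) (W : Set R) (A : ℂ → R) (ε : ℝ) (a : ℝ → R)
  (w : R → Circle), Ori (𝓡 2) oR → IsPreconnected (univ : Set R) → IsOpen W → IsPreconnected W →
  An' A → range A ⊆ W → 0 < ε → Dual (del A ε) a → range a ⊆ W → SC w →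
  (∀ᶠ x in 𝓝ˢ (Wᶜ ∪ A '' {z | |z.im| ≤ ε} ∪ range a), w x = 1) →
  ∃ A' : ℂ → R, An oR A' ∧ range A' ⊆ W ∧ NS A' ∧ Hm (del A ε * w) (del A' 1)

/-- HD 2: oriented handles from handle charts and back -/
def Hd2Stmt : Prop := ∀ (R : CM 2) (oR : Fm 2 R), Ori (𝓡 2) oR →
  (∀ (e : ℂ → R) δ, Hdl e δ → IsPreconnected (univ : Set R) → ∃ A B δ₁, Hd oR A B δ₁ ∧ NS A) ∧
  (∀ (e : Fin 3 → ℂ → R) δ, (∀ i, Hdl (e i) δ) →
    (∀ i j, i ≠ j → Disjoint (e i '' Xo δ) (e j '' Xo δ)) → IsPreconnected (univ : Set R) → G3 oR) ∧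
  (∀ A B δ, Hd oR A B δ → ∃ e δ₁, Hdl e δ₁ ∧ e '' Xo δ₁ ⊆ range A ∪ range B) ∧
  ∀ A B δ (k : Df R), Hd oR A B δ → Pos oR k → Hd oR (k ∘ A) (k ∘ B) δ

end Crest.Agent.X212.Hel40
end
end

-- ▼ part X212/Sm10/Hd2b
section

/-!
# X212 / Sm10 (helper10): `Hel40.Hd2Stmt`
-/

set_option autoImplicit false
set_option linter.unusedSectionVars false

open Set Filter Topology Function Complex
open scoped ContDiff Manifold
open Crest.Agent.X212.Dr59 Crest.Agent.X212.Int54 Crest.Agent.X212.Cyl58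
open Crest.Agent.X212.Sep15 (CM)
open Crest.Agent.X212.Bb31 (Fm Df)
open Crest.Agent.X212.Hel40 Crest.Agent.X212.Orx52

noncomputable section

namespace Crest.Agent.X212.Sm10

variable {R : CM 2} {o : Fm 2 R} {A B e : ℂ → R} {δ δ' : ℝ} {σ : ℝ → ℝ}

/-- a handle chart gives a handle whose first core does not separate the chart -/
theorem hd_loc (ho : Ori (𝓡 2) o) (h : Hdl e δ) : IsOpen (e '' Xo δ) ∧
    ∃ A B, H7.Hd o A B (δ / 2 / 2) ∧ range A ⊆ e '' Xo δ ∧ range B ⊆ e '' Xo δ ∧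
      IsPreconnected (e '' Xo δ \ core A) := by
  have h0 := half_pos h.pos
  have h1 := half_lt_self h.pos
  obtain ⟨a, -, -, ⟨σ, hσ⟩, b⟩ := Hd34.hd1Stmt R e δ _ h h0 h1
  obtain ⟨A, B, k, hd, rA, rB⟩ := hd_of_hdl ho h hσ h0 h1.le
  have s := image_mono (f := e) (Hd34.Xc_sub h1)
  refine ⟨a, A, B, hd, rA.trans s, rB.trans s, ?_⟩
  rcases k with rfl | rfl
  · exact (b σ hσ).2.2.1
  · rw [core_rf]; exact (b σ hσ).2.2.1

theorem core_sub (A : ℂ → R) : core A ⊆ range A := by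
  rintro _ ⟨t, rfl⟩; exact ⟨_, rfl⟩

theorem rem_fin {X ι : Type*} [TopologicalSpace X] {V : Set X} {N H : ι → Set X}
    (hV : IsPreconnected V) (hN : ∀ i, IsOpen (N i)) (hH : ∀ i, IsClosed (H i))
    (hHN : ∀ i, H i ⊆ N i) (hNV : ∀ i, N i ⊆ V) (hc : ∀ i, IsPreconnected (N i \ H i))
    (hd : ∀ i j, i ≠ j → Disjoint (N i) (N j)) (s : Finset ι) :
    IsPreconnected (V \ ⋃ i ∈ s, H i) := by
  classical
  induction s using Finset.induction_on with
  | empty => simpa using hV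
  | insert i s hi ih =>
    rw [Finset.set_biUnion_insert, union_comm, ← Set.sdiff_sdiff]
    refine rem ih (hN i) (hH i) (hHN i) (fun x hx => ⟨hNV i hx, fun k => ?_⟩) (hc i)
    obtain ⟨j, hj, k⟩ := mem_iUnion₂.1 k
    exact disjoint_left.1 (hd i j fun q => hi (q ▸ hj)) hx (hHN j k)

theorem an_post (h : H7.An o A) (k : Df R) (hk : Bb31.Pos o k) : H7.An o (k ∘ A) :=
  ⟨fun z => ld_comp (k.isLocalDiffeomorph _) (h.ld z),
    Orx52.Pos.comp (f := k) (s := univ) hk h.pos (fun y _ => k.isLocalDiffeomorph y)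
      (fun z _ => h.ld z) (mapsTo_univ _ _),
    fun z w => k.injective.eq_iff.trans (h.per z w)⟩

theorem hd_post (h : H7.Hd o A B δ) (k : Df R) (hk : Bb31.Pos o k) : H7.Hd o (k ∘ A) (k ∘ B) δ :=
  ⟨an_post h.hA k hk, an_post h.hB k hk, h.pos, h.small, fun z a b => congrArg k (h.box z a b),
    fun z w a b c => h.only z w a b (k.injective c)⟩

/-- **HD 2** -/
theorem hd2Stmt : Hd2Stmt := by
  refine fun R o ho => ⟨fun e δ h hc => ?_, fun e δ h hd hc => ?_, fun A B δ h => ?_,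
    fun A B δ k h hk => hd_post h k hk⟩
  · obtain ⟨a, A, B, hd, rA, -, c⟩ := hd_loc ho h
    refine ⟨A, B, _, hd, ?_⟩
    have := rem hc a (Hd34.core_closed (an' hd.hA)) ((core_sub A).trans rA) (subset_univ _) c
    rwa [← compl_eq_univ_sdiff] at this
  · choose A B hd' rA rB c using fun i => (hd_loc ho (h i)).2
    refine ⟨A, fun i => (hd' i).hA, fun i j k => (hd i j k).mono (rA i) (rA j), ?_⟩
    have := rem_fin hc (fun i => (hd_loc ho (h i)).1) (fun i => Hd34.core_closed (an' (hd' i).hA))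
      (fun i => (core_sub _).trans (rA i)) (fun _ => subset_univ _) c hd Finset.univ
    simp only [Finset.mem_univ, iUnion_true, ← compl_eq_univ_sdiff] at this
    exact this
  · have := h.pos
    have := h.small
    obtain ⟨e, he, -, -, k⟩ := hdl_of_hd h (δ' := δ / 2) (by linarith) (by linarith) (by linarith)
    exact ⟨e, _, he, image_subset_iff.2 fun z _ => k z⟩

end Crest.Agent.X212.Sm10
end
end

-- ▼ part X212/Psh23/Main
section

/-! PUSH: the joining paths are pushed towards the plateau by the flow of `-β g(tp + tm) v`. -/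

set_option autoImplicit false

open Set Filter Topology Function
open scoped ContDiff Manifold
open Crest.Agent.X212.Dr59 Crest.Agent.X212.Hel40 Crest.Agent.X212.Flo26
open Crest.Agent.X212.Sep15 (CM)

noncomputable section

namespace Crest.Agent.X212.Psh23

theorem lift {z z' : ℝ → ℂ} {θ : ℝ → ℝ} (hz : ∀ s, HasDerivAt z (z' s) s) (h1 : ∀ s, ‖z s‖ = 1)
    (hθ : ∀ s, HasDerivAt θ (star (z s) * z' s).im s) (h0 : θ 0 = 0) (T : ℝ) :
    z T = z 0 * Complex.exp (θ T * Complex.I) := by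
  have e1 : ∀ s, z s * star (z s) = 1 := fun s => by
    rw [Complex.star_def, Complex.mul_conj', h1]; simp
  have e2 : ∀ s, z' s = (star (z s) * z' s).im * Complex.I * z s := fun s => by
    have a1 := (hz s).mul (hz s).star
    rw [show (z * fun x => star (z x)) = fun _ => 1 from funext e1] at a1
    have a2 := congrArg Complex.re (a1.unique (hasDerivAt_const s 1))
    have a3 : (star (z s) * z' s).re = 0 := by
      simp only [Complex.star_def, Complex.add_re, Complex.mul_re, Complex.conj_re, Complex.conj_im,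
        Complex.zero_re] at a2 ⊢
      linarith
    have a4 := Complex.re_add_im (star (z s) * z' s)
    rw [a3, Complex.ofReal_zero, zero_add] at a4
    rw [a4, mul_comm, ← mul_assoc, e1, one_mul]
  have e3 : ∀ s, HasDerivAt (fun s => z s * Complex.exp (-(θ s * Complex.I))) 0 s := fun s => by
    refine ((hz s).mul ((hθ s).ofReal_comp.mul_const Complex.I).neg.cexp).congr_deriv ?_
    rw [Pi.neg_apply]
    nth_rewrite 1 [e2 s]
    ring
  have e4 := is_const_of_deriv_eq_zero (fun s => (e3 s).differentiableAt) (fun s => (e3 s).deriv) T 0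
  rw [h0, Complex.ofReal_zero, zero_mul, neg_zero, Complex.exp_zero, mul_one] at e4
  rw [← e4, mul_assoc, ← Complex.exp_add, neg_add_cancel, Complex.exp_zero, mul_one]

/-- stop a path at its first exit from a sublevel set -/
theorem exit {X : Type*} [TopologicalSpace X] {A : Set X} {u : X → ℝ} (hu : ContinuousOn u A)
    {x y : X} {ρ : ℝ} (h : JoinedIn A x y) (hx : u x ≤ ρ) :
    ∃ y', (y' = y ∨ u y' = ρ) ∧ JoinedIn (A ∩ {p | u p ≤ ρ}) x y' := by
  obtain ⟨γ, hγ⟩ := h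
  have hA : ∀ s, γ.extend s ∈ A := fun s => hγ _
  have hc : Continuous fun s => u (γ.extend s) := hu.comp_continuous γ.continuous_extend hA
  have key : ∀ s0, 0 ≤ s0 → (∀ s ∈ Ico 0 s0, u (γ.extend s) ≠ ρ) → u (γ.extend s0) ≤ ρ →
      JoinedIn (A ∩ {p | u p ≤ ρ}) x (γ.extend s0) := fun s0 h0 h1 h2 => by
    refine ((((convex_Icc 0 s0).isPathConnected ⟨0, le_rfl, h0⟩).image γ.continuous_extend).joinedIn
      x ⟨0, ⟨le_rfl, h0⟩, γ.extend_zero⟩ _ ⟨s0, ⟨h0, le_rfl⟩, rfl⟩).mono ?_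
    rintro _ ⟨s, hs, rfl⟩
    refine ⟨hA s, show u _ ≤ ρ from not_lt.1 fun h3 => ?_⟩
    obtain ⟨s', a1, a2⟩ := intermediate_value_Ico hs.1 hc.continuousOn
      (show ρ ∈ Ico (u (γ.extend 0)) (u (γ.extend s)) from ⟨by rwa [γ.extend_zero], h3⟩)
    exact h1 s' ⟨a1.1, a1.2.trans_le hs.2⟩ a2
  by_cases hZ : (Icc (0 : ℝ) 1 ∩ {s | u (γ.extend s) = ρ}).Nonempty
  · obtain ⟨s0, a1, a2⟩ := (isCompact_Icc.inter_right (isClosed_eq hc continuous_const)).exists_isLeast hZ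
    exact ⟨_, .inr a1.2, key s0 a1.1.1
      (fun s hs e => (a2 ⟨⟨hs.1, hs.2.le.trans a1.1.2⟩, e⟩).not_gt hs.2) a1.2.le⟩
  · refine ⟨_, .inl γ.extend_one, key 1 zero_le_one (fun s hs e => hZ ⟨s, ⟨hs.1, hs.2.le⟩, e⟩)
      (not_lt.1 fun h3 => ?_)⟩
    obtain ⟨s', a1, a2⟩ := intermediate_value_Icc zero_le_one hc.continuousOn
      (show ρ ∈ Icc (u (γ.extend 0)) (u (γ.extend 1)) from ⟨by rwa [γ.extend_zero], h3.le⟩)
    exact hZ ⟨s', a1, a2⟩

theorem one {a b θ k A B Θ : ℝ → ℝ} {r ε c T : ℝ} (ha : ∀ s, HasDerivAt a (k s * A s) s)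
    (hb : ∀ s, HasDerivAt b (k s * B s) s) (hθ : ∀ s, HasDerivAt θ (k s * Θ s) s)
    (hA : ∀ s, 0 ≤ A s) (hB : ∀ s, 0 ≤ B s) (hΘ : ∀ s, 0 ≤ Θ s) (hk : ∀ s, k s ≤ 0)
    (hp : ∀ s, 0 < a s + b s) (h0 : a 0 ≤ r) (h1 : b 0 ≤ 0) (hT : 0 ≤ T) (hr : r ≤ c * T)
    (hc : ∀ s, a s ≤ r → -r ≤ b s → ε ≤ a s + b s → k s * A s + k s * B s ≤ -c) :
    a T ≤ r ∧ -r ≤ b T ∧ a T + b T ≤ ε ∧ b T ≤ b 0 ∧ θ T ≤ θ 0 := by
  have a1 := antitone_of_hasDerivAt_nonpos ha fun s => mul_nonpos_of_nonpos_of_nonneg (hk s) (hA s)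
  have a2 := antitone_of_hasDerivAt_nonpos hb fun s => mul_nonpos_of_nonpos_of_nonneg (hk s) (hB s)
  have a3 := antitone_of_hasDerivAt_nonpos hθ fun s => mul_nonpos_of_nonpos_of_nonneg (hk s) (hΘ s)
  have a4 : ∀ s, 0 ≤ s → a s ≤ r ∧ -r ≤ b s := fun s hs => by
    have := a1 hs
    exact ⟨by linarith, by linarith [hp s]⟩
  refine ⟨(a4 T hT).1, (a4 T hT).2, not_lt.1 fun h => ?_, a2 hT, a3 hT⟩
  have a5 : ∀ s, HasDerivAt (fun s => a s + b s + c * s) (k s * A s + k s * B s + c * 1) s :=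
    fun s => ((ha s).add (hb s)).add ((hasDerivAt_id s).const_mul c)
  have a6 := antitoneOn_of_hasDerivWithinAt_nonpos (convex_Icc 0 T)
    (fun s _ => (a5 s).continuousAt.continuousWithinAt) (fun s _ => (a5 s).hasDerivWithinAt)
    (fun s hs => by
      have hs' := interior_subset hs
      linarith [hc s (a4 s hs'.1).1 (a4 s hs'.1).2 (by linarith [a1 hs'.2, a2 hs'.2])])
    (left_mem_Icc.2 hT) (right_mem_Icc.2 hT) hT
  simp only at a6
  linarith [hp T]

variable {Y : CM 3} {v : Vf Y} {M M' : Set Y}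

theorem cont_mf {F : Type*} [NormedAddCommGroup F] [NormedSpace ℝ F] (hv : SmV (𝓡 3) v)
    {O : Set Y} (hO : IsOpen O) {g : Y → F} (hg : ContMDiffOn (𝓡 3) 𝓘(ℝ, F) ∞ g O) :
    ContinuousOn (fun y => mf (𝓡 3) 𝓘(ℝ, F) g y (v y)) O := by
  refine ((contMDiff_snd_tangentBundle_modelSpace (n := ∞) F 𝓘(ℝ, F)).continuous.comp_continuousOn
    ((hg.continuousOn_tangentMapWithin (by simp) hO.uniqueMDiffOn).comp
      (ContMDiff.continuous hv).continuousOn fun y hy => hy)).congr fun y hy => ?_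
  simp only [comp, tangentMapWithin, mfderivWithin_of_isOpen hO hy]
  rfl

theorem rt_eq (Φ : Y → Circle) (y : Y) :
    rt Φ v y = (star (Φ y : ℂ) * mf (𝓡 3) 𝓘(ℝ, ℂ) (fun y => (Φ y : ℂ)) y (v y)).im := by
  refine (Line51.tl_eq_sum (I := 𝓡 3) (u := Line51.sc Φ) (x := y) (v y)).trans ?_
  simp only [Finset.univ_unique, Finset.sum_singleton, Line51.sc, Matrix.of_apply, Line51.dc]

/-- the odd cut-off -/
def gg (ε t : ℝ) : ℝ := Real.smoothTransition (2 * t / ε - 1) - Real.smoothTransition (2 * -t / ε - 1)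

theorem gg_neg (ε t : ℝ) : gg ε (-t) = -gg ε t := by simp [gg]

theorem gg_zero {ε t : ℝ} (hε : 0 < ε) (h : |t| ≤ ε / 2) : gg ε t = 0 := by
  have := abs_le.1 h
  rw [gg, Real.smoothTransition.zero_of_nonpos, Real.smoothTransition.zero_of_nonpos, sub_zero] <;>
    rw [sub_nonpos, div_le_one hε] <;> linarith

theorem gg_pos {ε t : ℝ} (hε : 0 < ε) (h : 0 ≤ t) : 0 ≤ gg ε t ∧ (ε ≤ t → gg ε t = 1) := by
  rw [gg, Real.smoothTransition.zero_of_nonpos (x := 2 * -t / ε - 1)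
    (by rw [sub_nonpos, div_le_one hε]; linarith), sub_zero]
  refine ⟨Real.smoothTransition.nonneg _, fun h => Real.smoothTransition.one_of_one_le ?_⟩
  rw [le_sub_iff_add_le, le_div_iff₀ hε]; linarith

theorem key (S : Pre v M M') (hv : SmV (𝓡 3) v) {ε : ℝ} (hε : 0 < ε) :
    ∃ (P : Y → Y) (Δ : Y → ℝ), Continuous P ∧ Continuous Δ ∧ ∀ y ∈ S.B S.r,
      P y ∈ S.B S.r ∧ |S.tp (P y) + S.tm (P y)| ≤ ε ∧ S.φ (P y) = S.φ y * Circle.exp (Δ y) ∧
      (|S.tp y + S.tm y| ≤ ε / 2 → P y = y ∧ Δ y = 0) ∧ ((P y = y ∧ Δ y = 0) ∨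
        (0 < S.tp (P y) + S.tm (P y) ∧ S.tm (P y) ≤ S.tm y ∧ Δ y ≤ 0) ∨
        (S.tp (P y) + S.tm (P y) < 0 ∧ S.tp y ≤ S.tp (P y) ∧ 0 ≤ Δ y)) := by
  have := ChartedSpace.locallyCompactSpace (Sep15.EE 3) Y
  obtain ⟨K, hK, k1, k2⟩ := exists_compact_between S.cpt S.op fun y hy => hy.1
  obtain ⟨β, b1, b0, b2⟩ :=
    exists_contMDiffMap_one_nhds_of_subset_interior (n := ⊤) (𝓡 3) S.cpt.isClosed k1
  let f : Y → ℝ := fun y => -β y * gg ε (S.tp y + S.tm y)
  have f0 : ∀ y ∉ S.O, ∀ᶠ x in 𝓝 y, f x = 0 := fun y hy => by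
    filter_upwards [hK.isClosed.isOpen_compl.mem_nhds fun h => hy (k2 h)] with x hx
    simp only [f, b0 x hx, neg_zero, zero_mul]
  have hf : ContMDiff (𝓡 3) 𝓘(ℝ, ℝ) ∞ f := fun y => by
    by_cases hy : y ∈ S.O
    · have g1 : ContDiff ℝ ∞ (gg ε) := by
        unfold gg
        have := Real.smoothTransition.contDiff (n := ⊤)
        fun_prop
      exact (β.contMDiff y).neg.mul
        (g1.contMDiff.contMDiffAt.comp y ((S.sp.add S.sm).contMDiffAt (S.op.mem_nhds hy)))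
    · exact contMDiffAt_const.congr_of_eventuallyEq (f0 y hy)
  let w : Vf Y := fun y => f y • v y
  have hw : SmV (𝓡 3) w := SmV.smul hf hv
  have hd := complete_of_compactSpace hw
  have hz : ContMDiffOn (𝓡 3) 𝓘(ℝ, ℂ) ∞ (fun y => (S.φ y : ℂ)) S.O :=
    Line51.contMDiff_coe.comp_contMDiffOn S.sφ
  let R : Y → ℝ := fun y => f y * rt S.φ v y
  have hR : Continuous R := continuous_iff_continuousAt.2 fun y => by
    by_cases hy : y ∈ S.O
    · simp only [R, rt_eq]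
      exact hf.continuous.continuousAt.mul (Complex.continuous_im.continuousAt.comp
        ((hz.continuousOn.star.mul (cont_mf hv S.op hz)).continuousAt (S.op.mem_nhds hy)))
    · refine continuousAt_const (y := 0).congr ?_
      filter_upwards [f0 y hy] with x hx
      simp only [R, hx, zero_mul]
  have hF := (Cpl.contMDiff hw hd).continuous
  have tc : ContinuousOn (fun y => S.tp y + S.tm y) S.O := S.sp.continuousOn.add S.sm.continuousOn
  have nM : ∀ y, S.tp y + S.tm y ≠ 0 → y ∉ M := fun y h hy => h (by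
    obtain ⟨-, a1, a2⟩ := (S.meq y).1 hy
    rw [a1, a2, add_zero])
  obtain ⟨c, hc, hc'⟩ := (S.cpt.of_isClosed_subset ((tc.abs.mono fun y hy => hy.1).preimage_isClosed_of_isClosed
    S.cpt.isClosed (isClosed_Ici (a := ε))) inter_subset_left).exists_forall_le'
    (((cont_mf hv S.op S.sp).add (cont_mf hv S.op S.sm)).mono fun y hy => hy.1.1)
    fun y hy => S.ly y hy.1.1 hy.1.2.1 hy.1.2.2 (nM y (abs_pos.1 (hε.trans_le hy.2)))
  have hT : 0 ≤ S.r / c := (div_pos S.rpos hc).le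
  have hr : S.r ≤ c * (S.r / c) := (mul_div_cancel₀ _ hc.ne').ge
  refine ⟨fl w (S.r / c), fun y => ∫ s in (0 : ℝ)..S.r / c, R (fl w s y),
    hF.comp (f := fun y => (S.r / c, y)) (by fun_prop),
    intervalIntegral.continuous_parametric_intervalIntegral_of_continuous'
      (f := fun y s => R (fl w s y)) (hR.comp (hF.comp continuous_swap)) _ _, fun y hy => ?_⟩
  beta_reduce
  have fb : ∀ x ∈ S.B S.r, f x = -gg ε (S.tp x + S.tm x) := fun x hx => by
    have : β x = 1 := b1.self_of_nhdsSet x hx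
    simp only [f, this, neg_mul, one_mul]
  have fix : w y = 0 → fl w (S.r / c) y = y ∧ ∫ s in (0 : ℝ)..S.r / c, R (fl w s y) = 0 := fun h => by
    have : R y = 0 := by
      have : R y = dl (𝓡 3) S.φ y (w y) := (map_smul (dl (𝓡 3) S.φ y) (f y) (v y)).symm
      rw [this, h]; exact map_zero _
    simp only [(fl_of_zero hw h _).2, this, intervalIntegral.integral_zero, and_self]
  have fix' : |S.tp y + S.tm y| ≤ ε / 2 → w y = 0 := fun h => by
    simp only [w, fb y hy, gg_zero hε h, neg_zero, zero_smul]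
  by_cases h0 : w y = 0
  · obtain ⟨a1, a2⟩ := fix h0
    rw [a1, a2]
    refine ⟨hy, not_lt.1 fun h => ?_, by simp, fun _ => ⟨rfl, rfl⟩, .inl ⟨rfl, rfl⟩⟩
    have a3 := hc' y ⟨hy, h.le⟩
    have a4 : f y ≠ 0 := by
      rw [fb y hy]
      rcases le_abs.1 h.le with e | e
      · rw [(gg_pos hε (hε.le.trans e)).2 e]; norm_num
      · rw [← gg_neg, (gg_pos hε (hε.le.trans e)).2 e]; norm_num
    have a5 : ∀ g : Y → ℝ, mf (𝓡 3) 𝓘(ℝ, ℝ) g y (v y) = 0 := fun g => by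
      rw [(smul_eq_zero.1 h0).resolve_left a4]; exact map_zero _
    simp only [Pi.add_apply, a5] at a3
    linarith
  have n1 : ∀ s, f (fl w s y) ≠ 0 := fun s e => by
    have a1 : w (fl w s y) = 0 := by simp only [w, e, zero_smul]
    have a2 := (neg_mem_dom hw (hd (s, y))).2
    rw [(fl_of_zero hw a1 _).2] at a2
    exact h0 (by rwa [a2] at a1)
  have n2 : ∀ s, fl w s y ∈ S.O := fun s => by_contra fun h => n1 s (f0 _ h).self_of_nhds
  have n3 : ∀ s, S.tp (fl w s y) + S.tm (fl w s y) ≠ 0 := fun s e => n1 s (by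
    simp only [f, e, gg_zero hε (t := 0) (by rw [abs_zero]; positivity), mul_zero])
  have dv : ∀ {F : Type} [NormedAddCommGroup F] [NormedSpace ℝ F] {g : Y → F},
      ContMDiffOn (𝓡 3) 𝓘(ℝ, F) ∞ g S.O → ∀ s, HasDerivAt (fun s => g (fl w s y))
        (f (fl w s y) • mf (𝓡 3) 𝓘(ℝ, F) g (fl w s y) (v (fl w s y))) s := fun hg s =>
    (hasDerivAt_comp_fl hw (hd (s, y)) ((hg.contMDiffAt (S.op.mem_nhds (n2 s))).mdifferentiableAt
      (by simp))).congr_deriv (map_smul (mf (𝓡 3) _ _ _) _ _)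
  have gc : Continuous fun s => fl w s y := hF.comp (f := fun s => (s, y)) (by fun_prop)
  have hθ : ∀ s, HasDerivAt (fun s => ∫ u in (0 : ℝ)..s, R (fl w u y)) (R (fl w s y)) s :=
    fun s => ((hR.comp gc).integral_hasStrictDerivAt 0 s).hasDerivAt
  have l1 := lift (dv hz) (fun s => Circle.norm_coe _) (fun s => (hθ s).congr_deriv (by
    simp only [R, rt_eq, mul_smul_comm, Complex.smul_im, smul_eq_mul])) (by simp) (S.r / c)
  have l2 : S.φ (fl w (S.r / c) y) = S.φ y * Circle.exp (∫ s in (0 : ℝ)..S.r / c, R (fl w s y)) := by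
    ext; rw [l1, fl_zero hw]; simp
  have z0 := fl_zero hw y
  have sg : (∀ s, 0 < S.tp (fl w s y) + S.tm (fl w s y)) ∨
      ∀ s, S.tp (fl w s y) + S.tm (fl w s y) < 0 := by
    by_contra h
    push Not at h
    obtain ⟨⟨s, a1⟩, s', a2⟩ := h
    obtain ⟨s, a3⟩ := intermediate_value_univ s s' (tc.comp_continuous gc n2) ⟨a1, a2⟩
    exact n3 s a3
  rcases sg with sg | sg
  · have := one (dv S.sp) (dv S.sm) hθ (fun s => S.pv _ (n2 s)) (fun s => S.mv _ (n2 s))
      (fun s => S.φv _ (n2 s)) (fun s => mul_nonpos_of_nonpos_of_nonneg (neg_nonpos.2 (b2 _).1)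
        (gg_pos hε (sg s).le).1) sg (by rw [z0]; exact hy.2.1) (by rw [z0]; exact S.m0 y hy.1) hT hr
      (ε := ε) fun s a1 a2 a3 => by
        have a4 := hc' _ ⟨⟨n2 s, a1, a2⟩, le_abs.2 (.inl a3)⟩
        rw [fb _ ⟨n2 s, a1, a2⟩, (gg_pos hε (sg s).le).2 a3]
        simp only [Pi.add_apply] at a4
        linarith
    rw [z0, intervalIntegral.integral_same] at this
    exact ⟨⟨n2 _, this.1, this.2.1⟩, by rw [abs_of_pos (sg _)]; exact this.2.2.1, l2,
      fun h => fix (fix' h), .inr (.inl ⟨sg _, this.2.2.2⟩)⟩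
  · have := one (k := fun s => -f (fl w s y)) (r := S.r) (c := c)
      (fun s => (dv S.sm s).neg.congr_deriv (neg_mul _ _).symm)
      (fun s => (dv S.sp s).neg.congr_deriv (neg_mul _ _).symm)
      (fun s => (hθ s).neg.congr_deriv (neg_mul _ _).symm) (fun s => S.mv _ (n2 s))
      (fun s => S.pv _ (n2 s)) (fun s => S.φv _ (n2 s))
      (fun s => by
        have := (gg_pos hε (neg_nonneg.2 (sg s).le)).1
        rw [gg_neg] at this
        simp only [f]
        nlinarith [(b2 (fl w s y)).1])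
      (fun s => by simp only [Pi.neg_apply]; linarith [sg s])
      (by simp only [Pi.neg_apply, z0]; linarith [hy.2.2])
      (by simp only [Pi.neg_apply, z0]; linarith [S.p0 y hy.1]) hT hr
      (ε := ε) fun s a1 a2 a3 => by
        simp only [Pi.neg_apply] at a1 a2 a3
        have a0 : fl w s y ∈ S.B S.r := ⟨n2 s, by linarith, by linarith⟩
        have a4 := hc' _ ⟨a0, le_abs.2 (.inr (show ε ≤ -(_ + _) by linarith))⟩
        rw [fb _ a0, ← gg_neg, (gg_pos hε (neg_nonneg.2 (sg s).le)).2 (by linarith)]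
        simp only [Pi.add_apply] at a4
        linarith
    simp only [Pi.neg_apply, z0, intervalIntegral.integral_same] at this
    obtain ⟨a1, a2, a3, a4, a5⟩ := this
    exact ⟨⟨n2 _, by linarith, by linarith⟩, by rw [abs_of_neg (sg _)]; linarith, l2,
      fun h => fix (fix' h), .inr (.inr ⟨sg _, by linarith, by linarith⟩)⟩

theorem push : PushStmt := by
  intro Y v M M' S hv ⟨D, Q, hQ, q1, q2⟩ W hW
  let u : Y → ℝ := fun y => max (S.tp y) (-S.tm y)
  have uc : ContinuousOn u S.O := S.sp.continuousOn.sup S.sm.continuousOn.neg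
  obtain ⟨m, hm, hm'⟩ := (S.cpt.diff (isOpen_interior (s := W))).exists_forall_le' (a := 0)
    (uc.mono fun y hy => hy.1.1) fun y hy => not_le.1 fun h => hy.2
      (subset_interior_iff_mem_nhdsSet.2 hW ((S.meq y).2 ⟨hy.1.1,
        ((le_max_left _ _).trans h).antisymm (S.p0 y hy.1.1),
        (S.m0 y hy.1.1).antisymm (neg_nonpos.1 ((le_max_right _ _).trans h))⟩))
  obtain ⟨c, hc, hc'⟩ := hQ.exists_forall_le' (a := 0)
    ((S.sp.continuousOn.inf S.sm.continuousOn.neg).mono fun y hy => (q1 y hy).1)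
    fun y hy => lt_min (q1 y hy).2.2.1 (neg_pos.2 (q1 y hy).2.2.2)
  obtain ⟨P, Δ, hP, hΔ, h⟩ := key S hv (ε := m / 4) (by positivity)
  obtain ⟨D1, hD⟩ := isCompact_univ.exists_bound_of_continuousOn hΔ.continuousOn
  have sW : ∀ y ∈ S.B S.r, u y ≤ m / 2 → y ∈ W := fun y hy h =>
    interior_subset (by_contra fun h' => by linarith [hm' y ⟨hy, h'⟩])
  let ρ := min S.r (m / 8)
  have hρ : 0 < ρ := lt_min S.rpos (by positivity)
  refine ⟨S.O ∩ u ⁻¹' Iio ρ, (uc.isOpen_inter_preimage S.op isOpen_Iio).mem_nhdsSet.2 fun y hy => ?_,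
    D + D1, S.B S.r ∩ (fun y => (u y, S.tp y, -S.tm y)) ⁻¹' (Iic (m / 2) ×ˢ Ici (min c (m / 4)) ×ˢ
      Ici (min c (m / 4))), S.cpt.of_isClosed_subset (((uc.prodMk (S.sp.continuousOn.prodMk
      S.sm.continuousOn.neg)).mono fun y hy => hy.1).preimage_isClosed_of_isClosed S.cpt.isClosed
      (isClosed_Iic.prod (isClosed_Ici.prod isClosed_Ici))) inter_subset_left, fun y hy => ?_,
    fun q hq hq' => ?_⟩
  · obtain ⟨a1, a2, a3⟩ := (S.meq y).1 hy
    exact ⟨a1, by simpa [u, a2, a3] using hρ⟩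
  · have : 0 < min c (m / 4) := lt_min hc (by positivity)
    exact ⟨hy.1.1, sW y hy.1 hy.2.1, this.trans_le hy.2.2.1, neg_pos.1 (this.trans_le hy.2.2.2)⟩
  obtain ⟨a1, a2⟩ := max_lt_iff.1 (show max _ _ < ρ from hq'.2)
  have a3 := min_le_left S.r (m / 8)
  have a4 := min_le_right S.r (m / 8)
  have qB : q.1 ∈ S.B S.r := ⟨hq'.1, by linarith, by linarith⟩
  obtain ⟨q', a5, a6⟩ := q2 q hq qB
  have a7 := (a6.map (f := fun p => (P p.1, p.2 + Δ p.1)) (by fun_prop)).mono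
    (V := {p | p ∈ S.Gam ∧ p.1 ∈ S.B S.r ∧ |p.2 - q.2| ≤ D + D1 ∧ |S.tp p.1 + S.tm p.1| ≤ m / 4}) (by
      rintro _ ⟨p, ⟨⟨b1, b2, b3⟩, b4, b5⟩, rfl⟩
      obtain ⟨c1, c2, c3, -, c4⟩ := h _ b4
      refine ⟨⟨c1.1, by rw [c3, b2, Circle.exp_add], ?_⟩, c1, ?_, c2⟩
      · have d1 := S.p0 _ c1.1
        have d2 := S.m0 _ c1.1
        rcases c4 with ⟨e1, e2⟩ | ⟨e1, e2, e3⟩ | ⟨e1, e2, e3⟩
        · simpa only [e1, e2, add_zero] using b3
        · rcases b3 with b3 | b3 | b3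
          · exact .inl ⟨by linarith, by linarith [b3.2]⟩
          all_goals exact .inr (.inr ⟨by linarith, by linarith [b3.1, b3.2]⟩)
        · rcases b3 with b3 | b3 | b3
          · exact .inr (.inr ⟨by linarith [b3.1], by linarith⟩)
          · exact .inr (.inl ⟨by linarith, by linarith [b3.2]⟩)
          · exact .inr (.inr ⟨by linarith [b3.1], by linarith⟩)
      · rw [add_sub_right_comm]
        exact (abs_add_le _ _).trans (add_le_add b5 (hD _ trivial)))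
  obtain ⟨b1, b2⟩ := (h _ qB).2.2.2.1
    (abs_le.2 ⟨by linarith [S.p0 _ hq'.1], by linarith [S.m0 _ hq'.1]⟩)
  simp only [b1, b2, add_zero, Prod.mk.eta] at a7
  obtain ⟨y', b3, b4⟩ := exit (u := fun p : Y × ℝ => u p.1) (ρ := m / 2)
    (uc.comp continuous_fst.continuousOn fun p hp => hp.1.1) a7 (max_le (by linarith) (by linarith))
  obtain ⟨⟨-, c1, -, c2⟩, c3⟩ := b4.target_mem
  refine ⟨y', ⟨c1, c3, ?_⟩, b4.mono fun p hp => ⟨hp.1.1, sW _ hp.1.2.1 hp.2, hp.1.2.2.1⟩⟩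
  have d1 := min_le_left c (m / 4)
  have d2 := min_le_right c (m / 4)
  show min c (m / 4) ≤ S.tp y'.1 ∧ min c (m / 4) ≤ -S.tm y'.1
  rcases b3 with rfl | b3
  · obtain ⟨e1, e2⟩ := le_min_iff.1 (hc' _ a5)
    simp only [Pi.neg_apply] at e2
    rcases (h _ (q1 _ a5).2.1).2.2.2.2 with e | e | e
    · simp only [e.1]; exact ⟨by linarith, by linarith⟩
    all_goals exact ⟨by linarith [e.1, e.2.1], by linarith [e.1, e.2.1]⟩
  · have := abs_le.1 c2
    rcases max_cases (S.tp y'.1) (-S.tm y'.1) with e | e <;>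
      simp only [u, e.1] at b3 <;> exact ⟨by linarith, by linarith⟩

end Crest.Agent.X212.Psh23
end
end

-- ▼ part X212/Hm4/Main
section

/-!
# X212/Hm4/Main (helper4): HEL-MAIN, the induction along the hierarchy
-/

set_option autoImplicit false
set_option linter.unusedSectionVars false

open Set Filter Topology Function Real
open scoped ContDiff Manifold
open Crest.Agent.X212.Dr59 Crest.Agent.X212.Int54 Crest.Agent.X212.Cyl58
open Crest.Agent.X212.Sep15 (EE IR CM Box slab px Rg)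
open Crest.Agent.X212.Bb31 (Fm)
open Crest.Agent.X212.Flo26 (SmV fl)
open Crest.Agent.X212.H7 (FT Fib)
open Crest.Agent.X212.Line51 (ang)
open Crest.Agent.X212.Hel40

noncomputable section

namespace Crest.Agent.X212.Hm4

variable {Y : CM 3} {R : CM 2} {o : Fm 3 Y} {v : Vf Y} {Φ : Y → Circle} {M N U K : Set Y}
  {δ a : ℝ} {E : ℂ × ℝ → Y} {oR : Fm 2 R} {b : R × ℝ → Y}

theorem ch_true (hv : SmV (𝓡 3) v) {n : ℕ} (h : Ch v false n M N) : Ch v true n M N := by
  induction n generalizing M with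
  | zero => exact h
  | succ n ih =>
    obtain ⟨M', S, h1, h2⟩ := h
    exact ⟨M', S, Psh23.push Y v M M' S hv h1, ih h2⟩

theorem st_conn (h : St o v Φ M U K δ a E) (ha : 0 < a) : IsConnected (PP Φ M) :=
  ⟨⟨_, (h.free 0 (.inl ⟨0, by simpa using h.hcol.pos⟩) 0 (by simpa using ha)).1⟩, h.conn⟩

theorem fib_of (h : Bas o v Φ M) (hb : Bx o v Φ oR b) : Fib Φ b := ⟨h.smΦ, hb.box, hb.rg, hb.ang⟩

/-- the top of the tower -/
theorem ft_base (h : St o v Φ ∅ U K δ 10 E) : FT Y univ (ang (𝓡 3) Φ) := by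
  have hB := h.bas
  obtain ⟨R, oR, b, hb⟩ := Box46.box Y o v Φ hB.ori hB.smv hB.smΦ fun y _ => hB.pos y id
  obtain ⟨S, hS, -⟩ := exists_idle (n := 0) rfl hB h.conn
  have hc := (Hl33.connStmt Box46.trk Y R o v Φ ∅ ∅ oR b S hB hb hS
    (st_conn h (by norm_num))).isPreconnected
  have ha : ∀ i : Fin 3, |(2 * ((((i : ℕ) : ℤ) - 1 : ℤ) : ℝ) + 1) * π| < 10 := fun i => by
    have := pi_lt_d2
    have := pi_pos
    rw [abs_lt]
    fin_cases i <;> constructor <;> norm_num <;> linarith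
  choose e he he' using fun i : Fin 3 => Box46.sheet Y R o v Φ oR b δ 10 E (((i : ℕ) : ℤ) - 1) hB.smv
    hB.smΦ hb h.hcol (ha i)
  refine FT.base (fib_of hB hb) (fun p k => (hB.pos p id).ne' ?_) ⟨hc⟩ hb.ori
    ((Sm10.hd2Stmt R oR hb.ori).2.1 e δ he (fun i j hij => disjoint_left.2 ?_) hc)
  · rw [rt, io_inj ((ang_eq Φ p).symm.trans (k.trans (map_zero _).symm))]; rfl
  · rintro _ ⟨z, hz, rfl⟩ ⟨w, hw, k⟩
    have h1 := he' i z hz 0 (by simpa using ha i)
    have h2 := he' j w hw 0 (by simpa using ha j)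
    rw [arctan_zero, mul_zero, add_zero] at h1 h2
    have h3 := ((h.hcol.eq (z, _) (w, _) hz (ha i) hw (ha j)).1 (h1.symm.trans (k ▸ h2))).1
    have h4 := mul_right_cancel₀ pi_pos.ne' h3
    have h5 : (((i : ℕ) : ℤ) - 1 : ℤ) = ((j : ℕ) : ℤ) - 1 := by
      exact_mod_cast (by linarith : ((((i : ℕ) : ℤ) - 1 : ℤ) : ℝ) = (((j : ℕ) : ℤ) - 1 : ℤ))
    exact hij (Fin.ext (by omega))

theorem ft_ind (hS : StepStmt) (hT : TfStmt) (n : ℕ) : ∀ (Y : CM 3) (o : Fm 3 Y) (v : Vf Y)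
    (Φ : Y → Circle) (M U K : Set Y) (δ : ℝ) (E : ℂ × ℝ → Y), St o v Φ M U K δ 10 E →
    Hi v true n M → ∃ U', U ⊆ U' ∧ FT Y U' (ang (𝓡 3) Φ) := by
  induction n with
  | zero =>
    intro Y o v Φ M U K δ E h (h0 : M = ∅)
    subst h0
    exact ⟨univ, subset_univ _, ft_base h⟩
  | succ n ih =>
    rintro Y o v Φ M U K δ E h ⟨M', S, h1, h2⟩
    obtain ⟨Y', o', v', Φ', M'', U', K', δ', E', R, oR, b, b', g, G, a1, a2, a3⟩ :=
      hS Y o v Φ M M' U K δ 10 E S n h h1 h2 (.inl rfl)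
    obtain ⟨U'', b1, b2⟩ := ih Y' o' v' Φ' M'' U' K' δ' E' a1 a2
    exact ⟨_, subset_union_left, hT Y Y' R _ Φ U'' Φ' oR b b' g G (a3.mono b1) b2⟩

/-- **MAIN** -/
theorem main (hS : StepStmt) (hT : TfStmt) : MainStmt := by
  rintro Y o Φ ⟨v, M, n, V, w, L, hB, hP, hH, hC⟩
  have hH' := ch_true hB.smv hH
  obtain ⟨δ, E, h1, h2⟩ := Lad50.Gn.genus Box46.box (fun Y R o v Φ M oR b a c d =>
    Hl33.footStmt Box46.trk Y R o v Φ M oR b 1 a c (.inl rfl) d) Y o v Φ M V w L hB hC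
  have st : St o v Φ M ∅ ∅ δ 4 E := ⟨hB, isCompact_empty, empty_subset _, hP, by rwa [sdiff_empty],
    empty_subset _, h1, fun z hz k hk => by
      have h3 : |(k : ℝ)| < 1 := by
        rw [abs_mul, abs_of_pos two_pi_pos] at hk
        nlinarith [two_le_pi, abs_nonneg (k : ℝ)]
      obtain rfl : k = 0 := Int.abs_lt_one_iff.1 (by exact_mod_cast h3)
      simpa using h2 z hz⟩
  obtain ⟨S, s1, s2⟩ := exists_idle hH' hB hP
  obtain ⟨Y', o', v', Φ', M'', U', K', δ', E', R', oR', b₀, b', g, G, a1, a2, a3⟩ :=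
    hS Y o v Φ M M ∅ ∅ δ 4 E S n st s1 hH' (.inr ⟨rfl, rfl, s2⟩)
  obtain ⟨U'', b1, b2⟩ := ft_ind hS hT n Y' o' v' Φ' M'' U' K' δ' E' a1 a2
  obtain ⟨R, oR, b, hb⟩ := Box46.box Y o v Φ hB.ori hB.smv hB.smΦ fun y k =>
    hB.pos y fun e => k (hB.one y e)
  refine ⟨R, b, _, connectedSpace_iff_univ.2 (Hl33.connStmt Box46.trk Y R o v Φ M M oR b S hB hb s1
    (st_conn st (by norm_num))), fib_of hB hb, ?_, hT Y Y' R' _ Φ U'' Φ' oR' b₀ b' g G (a3.mono b1) b2⟩
  rintro _ ⟨p, hp, rfl⟩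
  exact .inr (by rw [Mid, mem_ofPred_eq, hb.ang]; exact cay_re_neg.2 hp.2)

end Crest.Agent.X212.Hm4
end
end

-- ▼ part X212/Tf47/Psi
section

/-!
# X212/Tf47/Psi (helper47): `Hel40.PsiStmt`
-/

set_option autoImplicit false
set_option linter.unusedSectionVars false

open Set Filter Topology Function
open scoped ContDiff Manifold
open Crest.Agent.X212.Cyl58 Crest.Agent.X212.Hel40
open Crest.Agent.X212.Sep15 (EE IR CM Box slab px Rg)

noncomputable section

namespace Crest.Agent.X212.Tf47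

/-- `0` below `3`, `1` above `4` -/
def chi (s : ℝ) : ℝ := Real.smoothTransition (s - 3)

theorem chi_lo {s : ℝ} (h : s ≤ 3) : chi s = 0 := Real.smoothTransition.zero_of_nonpos (by linarith)

theorem chi_hi {s : ℝ} (h : 4 ≤ s) : chi s = 1 := Real.smoothTransition.one_of_one_le (by linarith)

theorem chi_cd : ContDiff ℝ ∞ chi :=
  Real.smoothTransition.contDiff.comp (contDiff_id.sub contDiff_const)

theorem psi : PsiStmt := by
  intro Y Y' R b b' h G ψ D l₁ l₂ hψ hD h₁ h₂ H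
  classical
  let F : R × ℝ → Circle := fun p =>
    D p.1 * Circle.exp (chi p.2 * l₁ (h.symm p.1) + chi (-p.2) * l₂ p.1)
  let k : Y' → Circle := ψ ∘ G.φ.symm
  let g : R × ℝ → Circle := fun p => if |p.2| < 4 then F p else k (b' p)
  have hχ : ContMDiff (IR 2) 𝓘(ℝ, ℝ) ∞ fun p : R × ℝ => chi p.2 :=
    chi_cd.contMDiff.comp contMDiff_snd
  have hχ' : ContMDiff (IR 2) 𝓘(ℝ, ℝ) ∞ fun p : R × ℝ => chi (-p.2) :=
    (chi_cd.comp contDiff_neg).contMDiff.comp contMDiff_snd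
  have hF : ContMDiff (IR 2) (𝓡 1) ∞ F := (hD.comp contMDiff_fst).mul (contMDiff_circleExp.comp
    ((hχ.mul ((h₁.comp h.symm.contMDiff).comp contMDiff_fst)).add (hχ'.mul (h₂.comp contMDiff_fst))))
  have hk : ∀ y ∉ slab b' {0}, ContMDiffAt (𝓡 3) (𝓡 1) ∞ k y := fun y hy => by
    have h1 : y ∈ G.φ.target := G.tgt ▸ hy
    have h2 := G.φ.map_target h1
    refine ContMDiffAt.comp y (hψ.contMDiffAt ?_)
      (G.φ.contMDiffOn_invFun.contMDiffAt (G.φ.open_target.mem_nhds h1))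
    rw [← G.src]
    exact G.φ.open_source.mem_nhds h2
  have gF : ∀ p : R × ℝ, |p.2| ≤ 7 → g p = F p := fun ⟨x, s⟩ hp => by
    by_cases h4 : |s| < 4
    · exact if_pos h4
    refine (if_neg h4).trans ?_
    have h7 := abs_le.1 hp
    rcases le_abs.1 (not_lt.1 h4) with h5 | h5
    · have e : G.φ.symm (b' (x, s)) = b (h.symm x, s) := G.symm.hi (x, s) (by dsimp only; linarith)
      simp only [k, F, comp_apply, e, (H (h.symm x) s ⟨by linarith, h7.2⟩).1,
        Diffeomorph.apply_symm_apply, chi_hi h5, chi_lo (show -s ≤ 3 by linarith), one_mul, zero_mul,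
        add_zero]
    · have e : G.φ.symm (b' (x, s)) = b (x, s) := G.symm.lo (x, s) (by dsimp only; linarith)
      have e2 := (H x (-s) ⟨by linarith, by linarith [h7.1]⟩).2
      rw [neg_neg] at e2
      simp only [k, F, comp_apply, e, e2, chi_hi h5, chi_lo (show s ≤ 3 by linarith), one_mul,
        zero_mul, zero_add]
  have gk : ∀ p : R × ℝ, p.2 ∉ Ioo (-4 : ℝ) 4 → g p = k (b' p) := fun p hp =>
    if_neg fun h4 => hp (abs_lt.1 h4)
  have ca : Continuous fun p : R × ℝ => |p.2| := continuous_snd.abs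
  have hg : ContMDiff (IR 2) (𝓡 1) ∞ g := fun p => by
    rcases lt_or_ge |p.2| 7 with h7 | h7
    · refine (hF p).congr_of_eventuallyEq ?_
      filter_upwards [(isOpen_lt ca continuous_const).mem_nhds h7] with q hq using gF q (le_of_lt hq)
    · have h4 : 4 < |p.2| := by linarith
      refine ((hk _ fun h0 => ?_).comp p (G.o'.contMDiff p)).congr_of_eventuallyEq ?_
      · rw [show p.2 = 0 from (Sep15.mem_slab G.o').1 h0, abs_zero] at h4
        linarith
      · filter_upwards [(isOpen_lt continuous_const ca).mem_nhds h4] with q hq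
        exact if_neg (lt_asymm hq)
  refine ⟨extend b' g k, chi, G.o'.contMDiff_extend' (K := univ ×ˢ Icc (-4) 4)
    (Sep15.isClosed_slab G.o' isCompact_Icc)
    (fun p hp => gk p fun h4 => hp ⟨mem_univ _, Ioo_subset_Icc_self h4⟩) hg
    (fun y hy => hk y fun h0 => hy (Sep15.slab_subset _ _ h0)), chi_cd, fun y hy => ?_,
    fun p hp => ?_, fun x s hs => ⟨?_, ?_⟩⟩
  · have h1 := G.mem_of_notMem (s := Ioo (-4) 4) ⟨by norm_num, by norm_num⟩ hy
    rw [extend_eq_of_notMem G.o'.inj (K := univ ×ˢ Ioo (-4) 4)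
      (fun p hp => gk p fun h4 => hp ⟨mem_univ _, h4⟩) fun h2 => hy ((G.mem_slab h1).1 h2)]
    exact congrArg ψ (G.φ.left_inv h1)
  · have h3 := abs_le.1 hp
    rw [G.o'.extend_apply, gF p (by linarith)]
    simp only [F, chi_lo h3.2, chi_lo (show -p.2 ≤ 3 by linarith), zero_mul, add_zero,
      Circle.exp_zero, mul_one]
  · rw [G.o'.extend_apply, gF _ (abs_le.2 ⟨by linarith [hs.1], hs.2⟩)]
    simp only [F, chi_lo (show -s ≤ 3 by linarith [hs.1]), Diffeomorph.symm_apply_apply, zero_mul,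
      add_zero]
  · rw [G.o'.extend_apply, gF _ (abs_le.2 ⟨by linarith [hs.2], by linarith [hs.1]⟩)]
    simp only [F, chi_lo (show -s ≤ 3 by linarith [hs.1]), neg_neg, zero_mul, zero_add]

end Crest.Agent.X212.Tf47
end
end

-- ▼ part X212/Tf47/Main
section

/-!
# X212/Tf47/Main (helper47): `Hel40.TfStmt`
-/

set_option autoImplicit false
set_option linter.unusedSectionVars false

open Set Filter Topology Function Real
open scoped ContDiff Manifold
open Crest.Agent.R208.F Crest.Agent.X212.Dr59 Crest.Agent.X212.Cyl58 Crest.Agent.X212.Hel40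
open Crest.Agent.X212.Sep15 (EE IR CM Box slab px Rg)
open Crest.Agent.X212.Bb31 (Fm Df Dy)
open Crest.Agent.X212.Sym24 (pu dT nc)
open Crest.Agent.X212.H7 (Hd Kl Hx FT)
open Crest.Agent.X212.Line51 (ang CSm)

noncomputable section

namespace Crest.Agent.X212.Tf47

variable {Y Y' : CM 3} {R : CM 2}

theorem md {EA HA EB HB : Type*} [NormedAddCommGroup EA] [NormedSpace ℝ EA] [TopologicalSpace HA]
    [NormedAddCommGroup EB] [NormedSpace ℝ EB] [TopologicalSpace HB]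
    {IA : ModelWithCorners ℝ EA HA} {IB : ModelWithCorners ℝ EB HB} {A B : Type*}
    [TopologicalSpace A] [ChartedSpace HA A] [TopologicalSpace B] [ChartedSpace HB B] {f : A → B}
    {x : A} (h : ContMDiffAt IA IB ∞ f x) : MDifferentiableAt IA IB f x :=
  h.mdifferentiableAt (by simp)

/-! ### the forms -/

theorem csm_cay (p : R × ℝ) : CSm (IR 2) (fun q : R × ℝ => cay q.2) p :=
  (contMDiff_cay.comp contMDiff_snd) p

theorem ang_cay (p : R × ℝ) :
    ang (IR 2) (fun q : R × ℝ => cay q.2) p = (2 * (1 / (1 + p.2 ^ 2))) • dT (EE 2) :=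
  (Line51.ang_exp (f := fun q : R × ℝ => π + 2 * arctan q.2)
    ((contDiff_cayA.contMDiff.comp contMDiff_snd) p)).trans
    (Sym24.df_comp_snd (((hasDerivAt_arctan p.2).const_mul 2).const_add π))

theorem kl {oR : Fm 2 R} {A B : ℂ → R} {δ ε : ℝ} (ho : Int54.Ori (𝓡 2) oR) (H : Hd oR A B δ)
    (hε : 0 < ε) (hδ : ε < δ) : Kl oR (ang (𝓡 2) (del A ε)) := by
  have hA : An' A := ⟨H.hA.ld, H.hA.per⟩
  obtain ⟨h1, h2, h3, h4, -⟩ := Hd34.delStmt R A ε hA hε
  have cd : ContDiff ℝ ∞ fun r => 2 * π * Hel40.stp ε r :=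
    contDiff_const.mul (Hd34.stp_cd ε)
  have ci : ContMDiff 𝓘(ℝ, ℂ) 𝓘(ℝ, ℝ) ∞ Complex.im := Complex.imCLM.contDiff.contMDiff
  refine Tw39.twStmt R oR _ A B δ ε (fun z => deriv (fun r => 2 * π * Hel40.stp ε r) z.im) ho H
    hδ (Line51.dg_ang _) (fun z => Monotone.deriv_nonneg fun r s hrs => ?_) (fun z => ?_) fun x hx => ?_
  · refine mul_le_mul_of_nonneg_left (smoothTransition.monotone ?_) two_pi_pos.le
    gcongr
  · rw [Line51.pm_ang (h1 _) (md (hA.1.contMDiff z)), show del A ε ∘ A = _ from funext h2]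
    exact (Line51.ang_exp ((cd.contMDiff.comp ci) z)).trans
      (Tw39.df_comp (md (ci z)) ((cd.differentiable (by simp)) _).hasDerivAt)
  · rw [ang_eq, dl_of_const (c := 1), map_zero]
    filter_upwards [h3.isClosed.isOpen_compl.mem_nhds hx] with y hy using h4 y hy

theorem hx {U : Set Y} {Φ : Y → Circle} {b : R × ℝ → Y} {u : R → Circle} {k : ℕ} (hb : Box b)
    (hΦ : SC Φ) (hu : SC u) (hk : 0 < k) (hU : slab b (Icc (-3) 3) ⊆ U)
    (e : ∀ p : R × ℝ, |p.2| < 3 → Φ (b p) = cay p.2 ^ k * u p.1) :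
    Hx b U (ang (𝓡 3) Φ) (ang (𝓡 2) u) := by
  refine ⟨hU, fun y _ => Line51.smAt_ang (hΦ y), Line51.dg_ang _,
    fun p => k * (2 * (1 / (1 + p.2 ^ 2))), fun p => by positivity, fun x y hy => ?_⟩
  have e1 : Φ ∘ b =ᶠ[𝓝 (x, y)] (fun q : R × ℝ => cay q.2) ^ k * (u ∘ Prod.fst) := by
    filter_upwards [(isOpen_lt continuous_snd.abs continuous_const).mem_nhds
      (show |((x, y) : R × ℝ).2| < 3 from abs_lt.2 hy)] with q hq using e q hq
  rw [Line51.pm_ang (hΦ _) (md (hb.contMDiff _)), Line51.ang_congr e1,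
    Line51.ang_mul ((csm_cay _).pow k) ((hu.comp contMDiff_fst) _), Line51.ang_pow (csm_cay _),
    ang_cay, smul_smul, ← Line51.pm_ang (hu _) mdifferentiableAt_fst, Sym24.pm_fst]

theorem dy {Φ : Y → Circle} {b : R × ℝ → Y} (hb : Box b) (hΦ : SC Φ) (e : ∀ p, Φ (b p) = cay p.2)
    (S : Set ℝ) : Dy b (ang (𝓡 3) Φ) S := fun x y _ =>
  ⟨2 * (1 / (1 + y ^ 2)), by positivity, by
    rw [Line51.pm_ang (hΦ _) (md (hb.contMDiff _)), show Φ ∘ b = _ from funext e, ang_cay]⟩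

theorem rest {Φ : Y → Circle} {Φ' : Y' → Circle} (φ : PartialDiffeomorph (𝓡 3) (𝓡 3) Y Y' ∞)
    (hΦ' : SC Φ') {p : Y'} (hp : p ∈ φ.target) {f : ℝ} (hf : 0 < f)
    (e : dl (𝓡 3) (Φ' ∘ φ) (φ.symm p) = f • dl (𝓡 3) Φ (φ.symm p)) :
    pm (𝓡 3) (𝓡 3) φ.symm (ang (𝓡 3) Φ) p = f⁻¹ • ang (𝓡 3) Φ' p := by
  have h1 : ContMDiffAt (𝓡 3) (𝓡 3) ∞ φ.symm p :=
    φ.contMDiffOn_invFun.contMDiffAt (φ.open_target.mem_nhds hp)
  have h2 : ContMDiffAt (𝓡 3) (𝓡 3) ∞ φ (φ.symm p) :=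
    φ.contMDiffOn_toFun.contMDiffAt (φ.open_source.mem_nhds (φ.map_target hp))
  have h3 : (Φ' ∘ φ) ∘ φ.symm =ᶠ[𝓝 p] Φ' := by
    filter_upwards [φ.open_target.mem_nhds hp] with q hq using congrArg Φ' (φ.right_inv hq)
  rw [← Line51.ang_congr h3, ← Line51.pm_ang ((hΦ' _).comp _ h2) (md h1), pm_apply, pm_apply,
    ang_eq, ang_eq, e, map_smul, map_smul, inv_smul_smul₀ hf.ne']

/-! ### the column -/

/-- the angle as a function of the height in the column of length seven -/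
def rho (t : ℝ) : ℝ := (1 - chi t) * bt t + chi t * (bt (t - 7) + 2 * π)

theorem bt_cd : ContDiff ℝ ∞ bt := (contDiff_const.mul contDiff_arctan).sub contDiff_const

theorem rho_cd : ContDiff ℝ ∞ rho := ((contDiff_const.sub chi_cd).mul bt_cd).add
  (chi_cd.mul ((bt_cd.comp (contDiff_id.sub contDiff_const)).add contDiff_const))

theorem rho_lo {t : ℝ} (h : t ≤ 3) : rho t = bt t := by simp [rho, chi_lo h]

theorem rho_hi {t : ℝ} (h : 4 ≤ t) : rho t = bt (t - 7) + 2 * π := by simp [rho, chi_hi h]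

theorem rho_der (t : ℝ) : ∃ d > (0 : ℝ), HasDerivAt rho d t := by
  have hb : ∀ s, HasDerivAt bt (2 * (1 / (1 + s ^ 2))) s := fun s =>
    ((hasDerivAt_arctan s).const_mul 2).sub_const π
  have hc := ((chi_cd.differentiable (by simp)) t).hasDerivAt
  have h0 : 0 ≤ deriv chi t :=
    Monotone.deriv_nonneg fun r s h => smoothTransition.monotone (sub_le_sub_right h 3)
  refine ⟨_, ?_, ((hc.const_sub 1).mul (hb t)).add
    (hc.mul (((hb (t - 7)).comp_sub_const t 7).add_const (2 * π)))⟩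
  have h1 : 0 ≤ chi t := smoothTransition.nonneg _
  have h2 : chi t ≤ 1 := smoothTransition.le_one _
  have h3 : 0 < 2 * (1 / (1 + t ^ 2)) := by positivity
  have h4 : 0 < 2 * (1 / (1 + (t - 7) ^ 2)) := by positivity
  have h5 := mul_nonneg h0 (show 0 ≤ bt (t - 7) + 2 * π - bt t by
    linarith [(bt_mem t).2, (bt_mem (t - 7)).1])
  rcases h1.eq_or_lt with h | h
  · rw [← h]; nlinarith
  · nlinarith [mul_pos h h4, mul_nonneg (sub_nonneg.2 h2) h3.le]

theorem rho_mono : StrictMono rho := strictMono_of_deriv_pos fun t => by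
  obtain ⟨d, h0, h⟩ := rho_der t
  rwa [h.deriv]

theorem rho_abs {t : ℝ} (h : t ∈ Ioo (2 : ℝ) (7 - 2)) : |rho t| < π := by
  have h1 := rho_mono h.1
  have h2 := rho_mono h.2
  rw [rho_lo (by norm_num)] at h1
  rw [rho_hi (t := 7 - 2) (by norm_num)] at h2
  have h3 := bt_mono (show (7 - 2 - 7 : ℝ) < 0 by norm_num)
  rw [bt_zero] at h3
  exact abs_lt.2 ⟨by linarith [bt_gt two_pos], by linarith⟩

theorem rho_ld (t : ℝ) : IsLocalDiffeomorphAt 𝓘(ℝ, ℝ) 𝓘(ℝ, ℝ) ∞ rho t := by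
  obtain ⟨d, h0, h⟩ := rho_der t
  exact Glue52.ld_of_fderiv isOpen_univ (mem_univ t) rho_cd.contDiffOn _
    (h.hasFDerivAt_equiv h0.ne')

theorem exists_ball {D : Set ℂ} (hD : IsOpen D) (h : D.Nonempty) :
    ∃ ι : EE 2 → ℂ, IsOE (𝓡 2) 𝓘(ℝ, ℂ) ι ∧ ∀ u, ι u ∈ D := by
  obtain ⟨z, hz⟩ := h
  obtain ⟨r, h0, hr⟩ := Metric.isOpen_iff.1 hD z hz
  let e : OpenPartialHomeomorph ℂ ℂ := OpenPartialHomeomorph.univBall z r
  have es : e.source = univ := OpenPartialHomeomorph.univBall_source z r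
  have et : e.target = Metric.ball z r := OpenPartialHomeomorph.univBall_target z h0
  have m : ∀ w, e w ∈ Metric.ball z r := fun w => et ▸ e.map_source (es ▸ mem_univ w)
  have he : IsOE 𝓘(ℝ, ℂ) 𝓘(ℝ, ℂ) e := ⟨fun a c h => e.injOn (es ▸ mem_univ a) (es ▸ mem_univ c) h,
    fun w => ld_of_inverse isOpen_univ Metric.isOpen_ball
      OpenPartialHomeomorph.contDiff_univBall.contMDiff.contMDiffOn
      OpenPartialHomeomorph.contDiffOn_univBall_symm.contMDiffOn (fun w _ => m w)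
      (fun _ _ => mem_univ _) (fun a _ => e.left_inv (es ▸ mem_univ a))
      (fun a ha => e.right_inv (et ▸ ha)) (mem_univ w)⟩
  exact ⟨_, he.comp (IsOE.of_diffeo
    Complex.orthonormalBasisOneI.repr.symm.toContinuousLinearEquiv.toDiffeomorph), fun u => hr (m _)⟩

theorem col {b : R × ℝ → Y} {U : Set Y} {Φ : Y → Circle} {D : Set ℂ} {c : ℂ × ℝ → Y}
    {e₁ e₂ : ℂ → R} (hb : Box b) (C : Clm b U Φ D c e₁ e₂) : H7.Col b U (ang (𝓡 3) Φ) := by
  obtain ⟨ι, hι, hD⟩ := exists_ball C.op C.ne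
  have ld : ∀ p : EE 2 × ℝ, IsLocalDiffeomorphAt (IR 2) ICR ∞ (Prod.map ι rho) p := fun p =>
    ld_prodMap (hι.loc p.1) (rho_ld p.2)
  refine ⟨c ∘ Prod.map ι rho, e₁ ∘ ι, e₂ ∘ ι, 7, by norm_num,
    fun p hp => ld_comp (C.ld _ (hD _) (rho_abs hp)) (ld p), fun p hp q hq e => ?_,
    fun p hp => C.mem _ (hD _) (rho_abs hp), fun p hp => ?_, fun u t ht => ?_, fun u t ht => ?_,
    fun u t ht hs => ?_⟩
  · exact hι.inj.prodMap rho_mono.injective
      (C.inj ⟨hD _, rho_abs hp.2⟩ ⟨hD _, rho_abs hq.2⟩ e)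
  · obtain ⟨d, h0, h⟩ := rho_der p.2
    have h1 : HasMFDerivAt (IR 2) ICR (Prod.map ι rho) p _ :=
      ((md (hι.contMDiff p.1)).hasMFDerivAt.comp p (hasMFDerivAt_fst p)).prodMk
        (h.hasFDerivAt.hasMFDerivAt.comp p (hasMFDerivAt_snd p))
    have h2 : mf (IR 2) ICR (Prod.map ι rho) p (0, 1) = d • ((0, 1) : ℂ × ℝ) := by
      rw [mf_of_has h1]
      refine Prod.ext ((map_zero (mf (𝓡 2) 𝓘(ℝ, ℂ) ι p.1)).trans (smul_zero d).symm) ?_
      exact (one_mul d).trans (mul_one d).symm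
    rw [pm_apply, ang_eq, pb_io, Sym24.nc_apply, ii_io, AlgHom.commutes, e0_alg,
      mf_comp (md (C.ld _ (hD _) (rho_abs hp)).contMDiffAt) h1.mdifferentiableAt]
    refine lt_of_lt_of_eq (mul_pos h0 (C.pos (Prod.map ι rho p) (hD _) (rho_abs hp))) ?_
    rw [← smul_eq_mul, ← map_smul, ← map_smul, ← h2]
    rfl
  · have e := C.lo _ (hD u) (bt t) ⟨bt_gt (by linarith [ht.1]), (bt_mem t).2⟩
    rw [show (bt t + π) / 2 = arctan t by rw [bt]; ring, tan_arctan] at e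
    rw [comp_apply, Prod.map_apply, rho_lo ht.2.le, e]
    rfl
  · have h1 := bt_mono (show t < 0 by linarith [ht.2])
    rw [bt_zero] at h1
    have e := C.hi _ (hD u) (bt t + 2 * π) ⟨by linarith [(bt_mem t).1], by linarith⟩
    rw [show (bt t + 2 * π - π) / 2 = arctan t by rw [bt]; ring, tan_arctan] at e
    rw [comp_apply, Prod.map_apply, rho_hi (by linarith [ht.1]), add_sub_cancel_right, e]
    rfl
  · have h0 := abs_lt.1 (rho_abs (t := t) ⟨by linarith [ht.1], by linarith [ht.2]⟩)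
    have h1 := rho_mono.monotone ht.1
    have h2 := rho_mono.monotone ht.2
    rw [rho_lo le_rfl, bt] at h1
    rw [rho_hi (t := 7 - 3) (by norm_num), bt, show (7 - 3 - 7 : ℝ) = -3 by norm_num] at h2
    rw [comp_apply, Prod.map_apply] at hs
    rcases lt_trichotomy (rho t) 0 with h | h | h
    · rw [C.lo _ (hD u) _ ⟨h0.1, h⟩, Sep15.mem_slab hb] at hs
      have h3 := arctan_strictMono hs.2
      rw [arctan_tan (by linarith [pi_pos]) (by linarith)] at h3
      linarith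
    · rw [h] at hs
      exact C.mid _ (hD u) (Sep15.slab_subset _ _ hs)
    · rw [C.hi _ (hD u) _ ⟨h, h0.2⟩, Sep15.mem_slab hb] at hs
      have h3 := arctan_strictMono hs.1
      rw [arctan_tan (by linarith) (by linarith [pi_pos])] at h3
      linarith

/-- **TF** -/
theorem tf : TfStmt := by
  intro Y Y' R U Φ U' Φ' oR b b' h G T F
  obtain ⟨k, A, B, δ, ε, hk, H, hε, hδ, e⟩ := T.hel
  obtain ⟨D, c, e₁, e₂, C⟩ := T.clm
  refine FT.step G.symm ⟨T.conn⟩ T.oriR T.kk.symm (kl T.oriR H hε hδ)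
    (hx G.o' T.sm' (Hd34.delStmt R A ε ⟨H.hA.ld, H.hA.per⟩ hε).1 hk T.sl' e) (col G.o' C)
    (dy G.o T.sm T.box _) (fun p hp hU => ?_) F
  have h1 := G.symm.mem_of_notMem (s := Ioo (-1) 1) ⟨by norm_num, by norm_num⟩ hp
  obtain ⟨h2, f, h3, h4⟩ := T.rest _ hU fun h2 => hp ((G.symm.mem_slab h1).1 h2)
  exact ⟨G.φ.right_inv h1 ▸ h2, f⁻¹, inv_pos.2 h3, rest G.φ T.sm' h1 h3 h4⟩

end Crest.Agent.X212.Tf47
end
end

-- ▼ part X212/Bs44/Main
section

/-!
# X212/Bs44 (helper44): homogeneity of (non-oriented) surfaces and the band sum `BS`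
-/

set_option autoImplicit false
set_option linter.unusedSectionVars false

open Set Filter Topology Function Complex
open scoped ContDiff Manifold Real
open Crest.Agent.X212.Hel40 Crest.Agent.X212.Cap52
open Crest.Agent.X212.Cyl58 (IsOE ld_comp ld_congr ld_id ld_of_comp contMDiffAt_of_comp)
open Crest.Agent.X212.Sep15 (CM)
open Crest.Agent.X212.Prf6 (IC tr Near G oC wd_of_inj)

noncomputable section

namespace Crest.Agent.X212.Bs44

variable {R : CM 2} {A : ℂ → R}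

/-- diffeomorphisms as permutations -/
def LD (k : Equiv.Perm R) : Prop := IsLocalDiffeomorph (𝓡 2) (𝓡 2) ∞ k

theorem LD.mul {k l : Equiv.Perm R} (h : LD k) (h' : LD l) : LD (k * l) :=
  fun x => ld_comp (f := l) (g := k) (h (l x)) (h' x)

theorem LD.inv {k : Equiv.Perm R} (h : LD k) : LD k⁻¹ := fun y => by
  obtain ⟨x, rfl⟩ := k.surjective y
  exact ld_of_comp (h x) (ld_congr (ld_id x) (.of_forall fun z => by simp))

/-- small plane charts -/
theorem exists_plane (x : R) {W : Set R} (hW : W ∈ 𝓝 x) :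
    ∃ D : ℂ → R, IsOE IC (𝓡 2) D ∧ D 0 = x ∧ range D ⊆ W := by
  obtain ⟨e, he, rfl⟩ : ∃ e : ℂ → R, IsLocalDiffeomorphAt IC (𝓡 2) ∞ e 0 ∧ e 0 = x := by
    have hx := mem_chart_source ℂ (Orx52.toCp x)
    refine ⟨Orx52.ofCp ∘ (chartAt ℂ (Orx52.toCp x)).symm ∘
      fun w => chartAt ℂ (Orx52.toCp x) (Orx52.toCp x) + 1 * w, ld_comp (Orx52.ld_ofCp _)
      (ld_comp ?_ (Prf6.pm_affine one_ne_zero _ 0).1), by simp [hx]; rfl⟩
    simpa using Prf6.ld_chart_symm _ ((chartAt ℂ _).map_source hx)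
  have hc := he.contMDiffAt.continuousAt
  obtain ⟨Φ, hx, hΦ⟩ := he
  obtain ⟨ρ, hρ, h⟩ := Metric.eventually_nhds_iff_ball.1
    ((hc.eventually_mem hW).and (Φ.open_source.mem_nhds hx))
  have hb : ∀ z : ℂ, 0 + ρ * Cut44.kap z ∈ Metric.ball (0 : ℂ) ρ := fun z => by
    simp only [zero_add, Metric.mem_ball, dist_zero_right, norm_mul, norm_real,
      Real.norm_of_nonneg hρ.le]
    nlinarith [Cut44.norm_kap z]
  have h0 : (ρ : ℂ) ≠ 0 := ofReal_ne_zero.2 hρ.ne'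
  refine ⟨e ∘ (fun w => 0 + ρ * w) ∘ Cut44.kap, ⟨fun z w k => ?_, fun z => ld_comp ⟨Φ, (h _ (hb z)).2, hΦ⟩
    (ld_comp (Prf6.pm_affine h0 0 _).1 (Cut44.pm_kap z).1)⟩, by simp [Cut44.kap_zero], ?_⟩
  · have k1 := (h _ (hb z)).2
    have k2 := (h _ (hb w)).2
    simp only [comp_apply, hΦ k1, hΦ k2] at k
    exact Cut44.kap_inj (mul_left_cancel₀ h0 (add_left_cancel (Φ.injOn k1 k2 k)))
  · rintro _ ⟨z, rfl⟩
    exact (h _ (hb z)).1

theorem out_supp {h : ℂ → ℂ} {L : Set ℂ} (hL : ∀ z ∉ L, h z = z) (z : ℂ) (hz : A z ∉ A '' L) :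
    A (h z) = A z := by rw [hL z fun k => hz ⟨z, k, rfl⟩]

/-- homogeneity -/
theorem hom {W : Set R} (hW : IsOpen W) (hc : IsPreconnected W) {x y : R} (hx : x ∈ W)
    (hy : y ∈ W) : ∃ k, LD k ∧ Near k Wᶜ ∧ k x = y := by
  have hl : Lev33.LCo W fun z => ∃ k, LD k ∧ Near k Wᶜ ∧ k x = z := by
    intro z hz
    obtain ⟨D, hD, rfl, hr⟩ := exists_plane z (hW.mem_nhds hz)
    obtain ⟨κ, -, h2, -, h4, h5⟩ := Prf6.exists_tau one_pos
    have hc := ((isCompact_closedBall (0 : ℂ) (5 * 1)).image hD.continuous).isClosed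
    refine nhdsWithin_le_nhds (mem_of_superset (hD.isOpenEmbedding.image_mem_nhds.2
      (Metric.closedBall_mem_nhds 0 one_pos)) ?_)
    rintro _ ⟨w, hw, rfl⟩
    have wd := wd_of_inj hD.inj (κ w)
    have fx : ∀ u ∉ D '' Metric.closedBall 0 (5 * 1), tr D (κ w) u = u :=
      fun u => wd.fix (out_supp (h5 w))
    have a : LD (tr D (κ w)) := fun u => by
      by_cases hu : u ∈ range D
      · obtain ⟨v, rfl⟩ := hu
        exact ld_of_comp (hD.loc v) (ld_congr (ld_comp (hD.loc _) (h2 w v).1) (.of_forall wd.apply))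
      · exact ld_congr (ld_id u) (eventually_of_mem (hc.isOpen_compl.mem_nhds
          fun k => hu (image_subset_range _ _ k)) fx)
    have b : Near (tr D (κ w)) Wᶜ := Prf6.near_of_closed hc
      (disjoint_compl_right_iff_subset.2 ((image_subset_range _ _).trans hr)) fx
    have c : tr D (κ w) (D 0) = D w := by
      rw [wd.apply, h4 w 0 (by simpa using hw) (by simp), zero_add]
    exact propext ⟨fun ⟨φ, d, e, f⟩ => ⟨_, a.inv.mul d, b.inv.mul e, by simp [f, ← c]⟩,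
      fun ⟨φ, d, e, f⟩ => ⟨_, a.mul d, b.mul e, by simp [f, c]⟩⟩
  rw [← hl.eq hc hx hy]
  exact ⟨1, fun u => ld_id u, Prf6.near_one _, rfl⟩

theorem ann (h : An' A) : Tw39.Ann (𝓡 2) A := ⟨h.1, h.2⟩

theorem im_eq (h : An' A) {z w : ℂ} (e : A z = A w) : z.im = w.im := by
  obtain ⟨n, rfl⟩ := (h.2 _ _).1 e
  simp

theorem mem_core (h : An' A) {z : ℂ} : A z ∈ core A ↔ z.im = 0 :=
  ⟨fun ⟨_, e⟩ => by simpa using (im_eq h e).symm, Prf6.mem_core⟩

theorem del_apply (h : An' A) (ε : ℝ) (z : ℂ) :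
    del A ε (A z) = Circle.exp (2 * π * stp ε z.im) := by
  have k : ∃ w, A w = A z := ⟨z, rfl⟩
  rw [del, dif_pos k, im_eq h k.choose_spec]

theorem del_out (ε : ℝ) {x : R} (hx : x ∉ range A) : del A ε x = 1 := dif_neg hx

theorem del_comp (h : An' A) {K : Equiv.Perm R} (h' : An' (K ∘ A)) (ε : ℝ) (x : R) :
    del (K ∘ A) ε x = del A ε (K⁻¹ x) := by
  by_cases hx : x ∈ range (K ∘ A)
  · obtain ⟨z, rfl⟩ := hx
    rw [del_apply h', comp_apply, Equiv.Perm.inv_def, Equiv.symm_apply_apply, del_apply h]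
  · rw [del_out ε hx, del_out ε fun ⟨z, e⟩ => hx ⟨z, by simp [e]⟩]

theorem tube (h : An' A) {U : Set R} (hU : U ∈ 𝓝ˢ (core A)) :
    ∃ δ > (0 : ℝ), ∀ z : ℂ, |z.im| < δ → A z ∈ U := by
  obtain ⟨O, hO, h1, h2⟩ := mem_nhdsSet_iff_exists.1 hU
  obtain ⟨δ, hδ, hs⟩ := (isCompact_Icc.image continuous_ofReal : IsCompact (ofReal '' Icc 0 1)
    ).exists_thickening_subset_open (hO.preimage h.1.contMDiff.continuous)
    (by rintro _ ⟨x, -, rfl⟩; exact h1 ⟨x, rfl⟩)
  refine ⟨δ, hδ, fun z hz => h2 ?_⟩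
  rw [← (ann h).per z (-⌊z.re⌋)]
  refine hs (Metric.mem_thickening_iff.2 ⟨_, ⟨Int.fract z.re, ⟨Int.fract_nonneg _,
    (Int.fract_lt_one _).le⟩, rfl⟩, ?_⟩)
  rw [dist_of_re_eq (by simp [Int.fract, sub_eq_add_neg])]
  simpa [Real.dist_eq] using hz

/-- periodic functions with jumps -/
theorem sm_jump (h : An' A) {F : ℂ → ℝ} (hF : ∀ z (n : ℤ), F (z + n) = F z) {a : ℝ}
    (h0 : ∀ z : ℂ, a ≤ |z.im| → F z = 0) {x : R} (hx : ∀ z, A z = x → ContDiffAt ℝ ∞ F z) :
    ContMDiffAt (𝓡 2) 𝓘(ℝ, ℝ) ∞ (extend A F 0) x := by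
  by_cases k : x ∈ Tw39.strip A a
  · obtain ⟨z, -, rfl⟩ := k
    exact contMDiffAt_of_comp (h.1 z) ((hx z rfl).contMDiffAt.congr_of_eventuallyEq
      (.of_forall ((ann h).ext_apply hF 0)))
  · exact contMDiffAt_const.congr_of_eventuallyEq (eventually_of_mem
      (((ann h).isCompact_strip a).isClosed.isOpen_compl.mem_nhds k)
      fun y hy => (ann h).ext_out hF h0 hy)

/-- the angle of the step -/
def st (r : ℝ) : ℝ := 2 * π * stp 1 r

/-- the jump -/
def hv (r : ℝ) : ℝ := if 0 < r then 2 * π else 0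

theorem st_cd : ContDiff ℝ ∞ st :=
  contDiff_const.mul (Real.smoothTransition.contDiff.comp (by fun_prop))

theorem st_zero {r : ℝ} (h : r ≤ -1) : st r = 0 := by
  rw [st, stp, Real.smoothTransition.zero_of_nonpos (by linarith), mul_zero]

theorem st_one {r : ℝ} (h : 1 ≤ r) : st r = 2 * π := by
  rw [st, stp, Real.smoothTransition.one_of_one_le (by linarith), mul_one]

theorem exp_hv (r : ℝ) : Circle.exp (hv r) = 1 := by unfold hv; split_ifs <;> simp

theorem hv_cd {z : ℂ} (h : z.im ≠ 0) : ContDiffAt ℝ ∞ (fun w : ℂ => hv w.im) z := by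
  rcases h.lt_or_gt with k | k
  · exact contDiffAt_const.congr_of_eventuallyEq ((continuous_im.continuousAt.eventually
      (gt_mem_nhds k)).mono fun w hw => if_neg hw.not_gt)
  · exact contDiffAt_const.congr_of_eventuallyEq ((continuous_im.continuousAt.eventually
      (lt_mem_nhds k)).mono fun w hw => if_pos hw)

theorem st_sq (r : ℝ) : st (Prf6.sq r) = st r := by
  rcases le_total r (-1) with k | k
  · rw [st_zero k, st_zero ((Prf6.sq_mono.monotone k).trans_eq (Prf6.sq_id (by simp)))]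
  rcases le_total 1 r with k' | k'
  · rw [st_one k', st_one ((Prf6.sq_id (by simp)).symm.trans_le (Prf6.sq_mono.monotone k'))]
  · rw [Prf6.sq_id (abs_le.2 ⟨k, k'⟩)]

/-- the parallel annulus -/
def par (A : ℂ → R) (z : ℂ) : R := A (z.re + (8 + Prf6.sq z.im : ℝ) * I)

theorem an_par (h : An' A) : An' (par A) := by
  refine ⟨fun z => ld_comp (f := fun w : ℂ => ((id w.re : ℝ) + (8 + Prf6.sq w.im : ℝ) * I : ℂ))
    (h.1 _) (Prf6.pm_diag contDiff_id (contDiff_const.add Prf6.sq_cd)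
      (by simpa using Prf6.sq_deriv _)).1, fun z w => (h.2 _ _).trans (exists_congr fun n => ?_)⟩
  simp [Complex.ext_iff, Prf6.sq_mono.injective.eq_iff]

theorem del_par (h : An' A) (z : ℂ) : del (par A) 1 (A z) = Circle.exp (st (z.im - 8)) := by
  by_cases k : A z ∈ range (par A)
  · obtain ⟨w, e⟩ := k
    have := im_eq h e
    rw [← e, del_apply (an_par h), ← this]
    simpa [st] using congrArg Circle.exp (st_sq w.im).symm
  · rw [del_out 1 k]
    rcases le_total (z.im - 8) (-1) with j | j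
    · simp [st_zero j]
    rcases le_total 1 (z.im - 8) with j' | j'
    · simp [st_one j']
    refine (k ⟨⟨z.re, z.im - 8⟩, congrArg A ?_⟩).elim
    simp [Prf6.sq_id (abs_le.2 ⟨j, j'⟩)]

/-- **BS** -/
theorem bs : BsStmt := by
  intro R V A C hA hC hV cV dAC dV hs
  have nA : ∀ x ∈ V, x ∉ core A := fun x hx k => disjoint_left.1 dV hx (Or.inl k)
  have nC : ∀ x ∈ V, x ∉ core C := fun x hx k => disjoint_left.1 dV hx (Or.inr k)
  -- the polar chart of the positive side of `C`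
  let E : ℂ → R := fun w => C (lg true w)
  have lp : ∀ w, (lg true w).im = ‖w‖ := fun w => by simpa [sg] using lg_im true w
  have Ep : ∀ z : ℂ, 0 < z.im → E (pe true z) = C z := fun z hz => by
    have hz' : 0 < sg true * z.im := by simpa [sg] using hz
    obtain ⟨n, hn⟩ := pe_inj hz' (lg_pos _ (pe_ne hz')) (pe_lg _ _).symm
    simp only [E, hn, (ann hC).per]
  have EV : ∀ w ≠ 0, E w ∈ V := fun w hw => (hs _ (lp w ▸ norm_pos_iff.2 hw)).2
  have Ei : Injective E := fun v w e => by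
    obtain ⟨n, hn⟩ := (hC.2 _ _).1 e
    rw [← pe_lg true w, hn, pe_per, pe_lg]
  have El : ∀ w ≠ 0, IsLocalDiffeomorphAt IC (𝓡 2) ∞ E w := fun w hw =>
    pe_lg true w ▸ ld_of_comp (pm_pe (lg_pos true hw)).1 (ld_congr (hC.1 _)
      ((continuous_im.continuousAt.eventually (lt_mem_nhds (lp w ▸ norm_pos_iff.2 hw))).mono Ep))
  have E0 : ∀ w, E w ∈ V → w ≠ 0 := by
    rintro _ k rfl
    exact nC _ k ((mem_core hC).2 (by simp [lp]))
  obtain ⟨k, k1, k2, k3⟩ := hom hV cV (hs I (by simp)).1 (EV 1 one_ne_zero)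
  have kV : ∀ x, k x ∈ V ↔ x ∈ V := Prf6.mem_iff_of_fix fun x hx => k2.fix hx
  have kV' : ∀ x, k⁻¹ x ∈ V ↔ x ∈ V := Prf6.mem_iff_of_fix fun x hx => k2.inv.fix hx
  obtain ⟨κ, -, t2, -, t4, t5⟩ := Prf6.exists_tau one_pos
  have κ1 : κ (-1) 1 = 0 := by simpa using t4 (-1) 1 (by simp) (by simp)
  have wd := wd_of_inj Ei (κ (-1))
  let K := tr E (κ (-1))
  have Ki : ∀ w, K⁻¹ (E w) = E ((κ (-1))⁻¹ w) := fun w => by
    rw [Equiv.Perm.inv_eq_iff_eq, wd.apply]; simp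
  have Kl : ∀ x ∈ V, x ≠ E 1 → K x ∈ V ∧ IsLocalDiffeomorphAt (𝓡 2) (𝓡 2) ∞ K x := fun x hx h1 => by
    by_cases hr : x ∈ range E
    · obtain ⟨w, rfl⟩ := hr
      have : κ (-1) w ≠ 0 := fun j => h1 (by rw [(κ (-1)).injective (j.trans κ1.symm)])
      exact ⟨wd.apply w ▸ EV _ this, ld_of_comp (El w (E0 w hx))
        (ld_congr (ld_comp (El _ this) (t2 _ w).1) (.of_forall wd.apply))⟩
    refine ⟨(wd.out hr).symm ▸ hx, ld_congr (ld_id x) ?_⟩
    filter_upwards [(((ann hC).isCompact_strip 5).isClosed.isOpen_compl.union (hC.1.isOpenMap _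
      (isOpen_lt continuous_im (continuous_const (y := 0))))).mem_nhds (show x ∈ _ by
        by_cases j : x ∈ range C
        · obtain ⟨z, rfl⟩ := j
          rcases lt_trichotomy z.im 0 with j | j | j
          · exact Or.inr ⟨z, j, rfl⟩
          · exact (nC _ hx ((mem_core hC).2 j)).elim
          · exact (hr ⟨_, Ep z j⟩).elim
        · exact Or.inl fun i => j (image_subset_range _ _ i))] with y hy
    refine wd.fix (out_supp (t5 _)) ?_
    rintro ⟨w, hw, rfl⟩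
    rcases hy with j | ⟨z, j, e⟩
    · exact j ((ann hC).mem_strip.2 (by simpa [lp] using hw))
    · exact not_le.2 (show z.im < 0 from j) (by rw [im_eq hC e, lp]; exact norm_nonneg w)
  have dV' : ∀ z, k (par A z) ∈ V ∧ k (par A z) ≠ E 1 := fun z => by
    have := abs_lt.1 (Prf6.abs_sq_lt z.im)
    refine ⟨(kV _).2 (hs _ (by simp; linarith)).1, fun e => ?_⟩
    have := im_eq hA (k.injective (e.trans k3.symm))
    simp at this
    linarith
  have a1 : An' (k ∘ par A) := ⟨fun z => ld_comp (k1 _) ((an_par hA).1 z), fun z w =>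
    k.injective.eq_iff.trans ((an_par hA).2 z w)⟩
  have a2 : An' (K ∘ k ∘ par A) := ⟨fun z => ld_comp (Kl _ (dV' z).1 (dV' z).2).2 (a1.1 z), fun z w =>
    K.injective.eq_iff.trans (a1.2 z w)⟩
  refine ⟨_, a2, by rintro _ ⟨z, rfl⟩; exact (Kl _ (dV' z).1 (dV' z).2).1, ?_⟩
  -- the functions
  let H : R → ℝ := extend A (fun z => st z.im - hv z.im) 0
  let F : R → ℝ := extend A (fun z => hv z.im - st (z.im - 8)) 0
  have H1 : ∀ z, H (A z) = st z.im - hv z.im := (ann hA).ext_apply (by simp) 0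
  have F1 : ∀ z, F (A z) = hv z.im - st (z.im - 8) := (ann hA).ext_apply (by simp) 0
  have F0 : ∀ z : ℂ, 9 ≤ |z.im| → hv z.im - st (z.im - 8) = 0 := fun z hz => by
    rcases le_abs'.1 hz with j | j
    · rw [hv, if_neg (by linarith), st_zero (by linarith), sub_zero]
    · rw [hv, if_pos (by linarith), st_one (by linarith), sub_self]
  have sim := Tw39.sm_im
  have sF : ∀ x ∉ core A, ContMDiffAt (𝓡 2) 𝓘(ℝ, ℝ) ∞ F x := fun x hx =>
    sm_jump hA (by simp) F0 fun z e => (hv_cd fun j => hx (e ▸ (mem_core hA).2 j)).sub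
      (st_cd.comp (sim.sub contDiff_const)).contDiffAt
  have eH : ∀ x, del A 1 x = Circle.exp (H x) := fun x => by
    by_cases j : x ∈ range A
    · obtain ⟨z, rfl⟩ := j
      rw [del_apply hA, H1, Circle.exp_sub, exp_hv, div_one, st]
    · simp [del_out 1 j, H, extend_apply' _ _ _ j]
  have eF : ∀ x, del (par A) 1 x = Circle.exp (-F x) := fun x => by
    by_cases j : x ∈ range A
    · obtain ⟨z, rfl⟩ := j
      rw [del_par hA, F1, neg_sub, Circle.exp_sub, exp_hv, div_one]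
    · simp [del_out 1 (A := par A) fun ⟨z, e⟩ => j ⟨_, e⟩, F, extend_apply' _ _ _ j]
  have s1 : ContMDiff (𝓡 2) 𝓘(ℝ, ℝ) ∞ fun x => F (k⁻¹ x) + H x := fun x => by
    by_cases j : x ∈ core A
    · obtain ⟨t, rfl⟩ := j
      refine ContMDiffAt.congr_of_eventuallyEq (f := fun x => F x + H x) (contMDiffAt_of_comp (hA.1 t)
        ?_) ((k2.inv.at fun i => nA _ i ⟨t, rfl⟩).mono fun y hy => by simp only [hy])
      refine (((st_cd.comp sim).sub (st_cd.comp (sim.sub (contDiff_const (c := 8))))).contMDiff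
        _).congr_of_eventuallyEq (.of_forall fun z => ?_)
      simp only [comp_apply, F1, H1]
      ring
    · refine ((sF _ fun i => j ?_).comp x (k1.inv x).contMDiffAt).add (sm_jump hA (by simp) (a := 1)
        (fun z hz => ?_) fun z e => (st_cd.comp sim).contDiffAt.sub
          (hv_cd fun i => j (e ▸ (mem_core hA).2 i)))
      · rwa [k2.inv.fix fun i' => nA _ ((kV' x).2 i') i] at i
      · rcases le_abs'.1 hz with j | j
        · rw [hv, if_neg (by linarith), st_zero j, sub_zero]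
        · rw [hv, if_pos (by linarith), st_one j, sub_self]
  let f : ℂ → ℝ := fun w => F (k⁻¹ (E w))
  have f0 : ∀ᶠ w in 𝓝 0, f w = 0 := by
    obtain ⟨δ, hδ, h⟩ := tube hC (inter_mem (k2.inv.mono fun x hx i => nC x i hx)
      (((ann hA).isCompact_strip 9).isClosed.isOpen_compl.mem_nhdsSet.2 fun x ⟨t, e⟩ i =>
        disjoint_left.1 dAC (image_subset_range _ _ i) ⟨_, e⟩))
    filter_upwards [Metric.ball_mem_nhds 0 hδ] with w hw
    obtain ⟨j1, j2⟩ := h (lg true w) (by simpa [lp] using hw)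
    simp only [f, E, show k⁻¹ (C (lg true w)) = _ from j1]
    exact (ann hA).ext_out (by simp) F0 j2
  have f1 : ∀ᶠ w in 𝓝 1, f w = 2 * π := by
    filter_upwards [((k1.inv _).contMDiffAt.comp 1 (El 1 one_ne_zero).contMDiffAt).continuousAt.eventually
      ((hA.1.isOpenMap _ (isOpen_Ioo.preimage continuous_im : IsOpen (im ⁻¹' Ioo 0 7))).mem_nhds
        ⟨I, by simp, by simp [← k3]⟩)] with w ⟨z, hz, e⟩
    simp only [f, show k⁻¹ (E w) = A z from e.symm, F1]
    rw [hv, if_pos hz.1, st_zero (by linarith [hz.2]), sub_zero]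
  have fs : ContDiff ℝ ∞ f := contDiff_iff_contDiffAt.2 fun w => by
    by_cases hw : w = 0
    · exact contDiffAt_const.congr_of_eventuallyEq (hw ▸ f0)
    · exact contMDiffAt_iff_contDiffAt.1 ((sF _ (nA _ ((kV' _).2 (EV w hw)))).comp w
        ((k1.inv _).contMDiffAt.comp w (El w hw).contMDiffAt))
  have κi : (κ (-1))⁻¹ 0 = 1 := by rw [Equiv.Perm.inv_eq_iff_eq, κ1]
  let ψ : ℂ → ℝ := fun w => f ((κ (-1))⁻¹ w) - f w - 2 * π
  have ψs : ContDiff ℝ ∞ ψ := ((fs.comp (contMDiff_iff_contDiff.1 (Prf6.G_sm (inv_mem (t2 _))))).sub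
    fs).sub contDiff_const
  obtain ⟨ρ, hρ, ψ0⟩ : ∃ ρ > 0, ∀ w : ℂ, ‖w‖ < ρ → ψ w = 0 := by
    obtain ⟨ρ, hρ, h⟩ := Metric.eventually_nhds_iff_ball.1 (f0.and
      ((Prf6.G_cont_inv (t2 (-1))).continuousAt.eventually (κi.symm ▸ f1)))
    exact ⟨ρ, hρ, fun w hw => by
      simp only [ψ, h w (mem_ball_zero_iff.2 hw), sub_zero, sub_self]⟩
  let δ : ℂ → ℝ := fun z => (if 0 < z.im then ψ (pe true z) else 0) + st z.im
  have δp : ∀ z (n : ℤ), δ (z + n) = δ z := fun z n => by simp [δ, pe_per]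
  have s2 : ContMDiff (𝓡 2) 𝓘(ℝ, ℝ) ∞ (extend C δ 0) := fun x => by
    refine sm_jump hC δp (a := 6) (fun z hz => ?_) fun z _ => ContDiffAt.add ?_
      (st_cd.comp sim).contDiffAt
    · rcases le_abs'.1 hz with j | j
      · simp only [δ]
        rw [if_neg (by linarith), st_zero (by linarith), add_zero]
      · have : (κ (-1))⁻¹ (pe true z) = pe true z := by
          rw [Equiv.Perm.inv_eq_iff_eq, t5 _ _ (by rw [mem_closedBall_zero_iff, norm_pe]; linarith)]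
        simp only [δ, ψ, this]
        rw [if_pos (by linarith), st_one (by linarith)]
        ring
    · by_cases j : 0 < z.im
      · exact (ψs.contDiffAt.comp z (pm_pe (by simpa [sg] using j)).contDiffAt).congr_of_eventuallyEq
          ((continuous_im.continuousAt.eventually (lt_mem_nhds j)).mono fun w hw => if_pos hw)
      · refine (contDiffAt_const (c := 0)).congr_of_eventuallyEq ((continuous_im.continuousAt.eventually
          (gt_mem_nhds ((not_lt.1 j).trans_lt hρ))).mono fun w hw => ?_)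
        beta_reduce
        split_ifs with i
        · exact ψ0 _ (by rwa [norm_pe, abs_of_pos i])
        · rfl
  refine ⟨_, s1.add s2, fun x => ?_⟩
  rw [del_comp a1 a2, del_comp (an_par hA) a1, eF, Pi.mul_apply, eH, ← Circle.exp_add]
  by_cases j : x ∈ range C
  swap
  · rw [del_out 1 j, Equiv.Perm.inv_eq_iff_eq.2 (wd.out fun ⟨w, e⟩ => j ⟨_, e⟩).symm]
    simp [extend_apply' _ _ _ j]
  obtain ⟨z, rfl⟩ := j
  simp only [Pi.add_apply, (ann hC).ext_apply δp, del_apply hC, ← Circle.exp_add, δ]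
  split_ifs with i
  · rw [← Ep z i, Ki, Circle.exp_eq_exp]
    exact ⟨1, by simp only [ψ, f, st]; push_cast; ring⟩
  · by_cases j : C z ∈ range E
    · obtain ⟨w, e⟩ := j
      obtain rfl : w = 0 := norm_le_zero_iff.1 (by rw [← lp, im_eq hC e]; exact not_lt.1 i)
      have j0 : F (k⁻¹ (E 0)) = 0 := f0.self_of_nhds
      have j1 : F (k⁻¹ (E 1)) = 2 * π := f1.self_of_nhds
      rw [← e, Ki, κi, j0, j1, Circle.exp_eq_exp]
      exact ⟨1, by simp only [st]; push_cast; ring⟩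
    · rw [Equiv.Perm.inv_eq_iff_eq.2 (wd.out j).symm]
      congr 1
      simp only [st]
      ring

end Crest.Agent.X212.Bs44
end
end

-- ▼ part X212/Lev9/Single
section

/-!
# Row 212, HEL / SINGLE (helper9): a class with a dual loop is the step across one annulus
-/

set_option autoImplicit false
set_option linter.unusedSectionVars false
noncomputable section
open Set Filter Topology Function Complex
open scoped ContDiff Manifold

namespace Crest.Agent.X212.Lev9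

open Crest.Agent.X212.Hel40 Crest.Agent.X212.Int54
open Crest.Agent.X212.Sep15 (CM EE)
open Crest.Agent.X212.Bb31 (Fm)

variable {R : CM 2} {u u' u'' w w' : R → Circle} {A C D : ℂ → R} {a : ℝ → R} {V W : Set R}

theorem hm_refl (u : R → Circle) : Hm u u := ⟨0, contMDiff_const, fun x => by simp⟩

theorem hm_symm (h : Hm u u') : Hm u' u :=
  let ⟨l, h1, h2⟩ := h
  ⟨-l, h1.neg, fun x => by simp [h2 x]⟩

theorem hm_mul (h : Hm u u') (h' : Hm w w') : Hm (u * w) (u' * w') :=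
  let ⟨l, h1, h2⟩ := h
  let ⟨l', h3, h4⟩ := h'
  ⟨l + l', h1.add h3, fun x => by simp [h2 x, h4 x, mul_mul_mul_comm]⟩

theorem hm_trans (h : Hm u u') (h' : Hm u' u'') : Hm u u'' :=
  let ⟨l, h1, h2⟩ := h
  let ⟨l', h3, h4⟩ := h'
  ⟨l' + l, h3.add h1, fun x => by simp [h2 x, h4 x, mul_assoc]⟩

theorem hm_inv (h : Hm u u') : Hm u⁻¹ u'⁻¹ :=
  let ⟨l, h1, h2⟩ := h
  ⟨-l, h1.neg, fun x => by simp [h2 x, mul_comm]⟩

theorem hm_prod {ι : Type*} {s : Finset ι} {f g : ι → R → Circle} (h : ∀ i ∈ s, Hm (f i) (g i)) :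
    Hm (∏ i ∈ s, f i) (∏ i ∈ s, g i) :=
  Finset.cons_induction_on s (fun _ => hm_refl _) (fun i s hi ih h => by
    rw [Finset.prod_cons, Finset.prod_cons]
    exact hm_mul (h i (Finset.mem_cons_self _ _)) (ih fun j hj => h j (Finset.mem_cons_of_mem hj))) h

theorem dual_hm (h : Dual u a) (h' : Hm u u') : Dual u' a := by
  obtain ⟨h1, h2, l, h3, h4, h5⟩ := h
  obtain ⟨k, k1, k2⟩ := hm_symm h'
  exact ⟨h1, h2, fun t => l t + k (a t), h3.add (k1.continuous.comp h1),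
    fun t => by rw [k2, h4, Circle.exp_add], fun t => by simp only [h2, h5]; ring⟩

theorem dual_congr {X : Type*} [TopologicalSpace X] {u u' : X → Circle} {a : ℝ → X} (h : Dual u a)
    (e : ∀ t, u' (a t) = u (a t)) : Dual u' a :=
  let ⟨h1, h2, l, h3, h4, h5⟩ := h
  ⟨h1, h2, l, h3, fun t => (e t).trans (h4 t), h5⟩

theorem dual_nl {X : Type*} [TopologicalSpace X] {u : X → Circle} {a : ℝ → X} {V : Set X}
    (h : Dual u a) (hV : ∀ t, a t ∈ V) : ¬Lifts u V := by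
  rintro ⟨k, k1, k2⟩
  obtain ⟨h1, h2, l, h3, h4, h5⟩ := h
  have e := Circle.isCoveringMap_exp.eq_of_comp_eq (g₁ := fun t => l t - k (a t))
    (g₂ := fun _ => l 0 - k (a 0)) (h3.sub (k1.comp_continuous h1 hV)) continuous_const
    (funext fun t => by simp [← h4, ← k2 _ (hV _)]) 0 rfl
  have := congrFun e (0 + 1)
  simp only [h5, h2] at this
  linarith [Real.pi_pos]

theorem an_neg (h : An' A) : An' fun z => A (-z) :=
  ⟨fun z => Cyl58.ld_comp (f := Neg.neg) (h.1 _)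
    ((ContinuousLinearEquiv.neg ℝ).toDiffeomorph.isLocalDiffeomorph z), fun z w => (h.2 _ _).trans
      ⟨fun ⟨n, e⟩ => ⟨-n, by push_cast; linear_combination -e⟩,
        fun ⟨n, e⟩ => ⟨-n, by push_cast; linear_combination -e⟩⟩⟩

theorem range_neg (A : ℂ → R) : range (fun z => A (-z)) = range A := neg_surjective.range_comp A

theorem core_neg (A : ℂ → R) : core (fun z => A (-z)) = core A := by
  simpa [core, comp_def] using neg_surjective.range_comp fun t : ℝ => A t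

theorem stp_neg (r : ℝ) : stp 1 (-r) = 1 - stp 1 r := by
  have := (Real.smoothTransition.pos_denom ((r + 1) / 2)).ne'
  simp only [stp, Real.smoothTransition, div_one, show (-r + 1) / 2 = 1 - (r + 1) / 2 by ring,
    sub_sub_cancel]
  rw [eq_sub_iff_add_eq, add_comm (expNegInvGlue (1 - _)), ← add_div, add_comm (expNegInvGlue (1 - _)),
    div_self this]

theorem del_neg (h : An' A) : del (fun z => A (-z)) 1 = (del A 1)⁻¹ := funext fun x => by
  by_cases hx : x ∈ range A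
  · obtain ⟨z, rfl⟩ := hx
    have := del_A (an_neg h).2 1 (-z)
    rw [neg_neg] at this
    rw [this, Pi.inv_apply, del_A h.2, neg_im, stp_neg, mul_sub, Circle.exp_sub, mul_one,
      Circle.exp_two_pi, one_div]
  · rw [Pi.inv_apply, del_off 1 hx, del_off 1 (by rwa [range_neg]), inv_one]

/-- a thinner annulus -/
theorem thin (h : An' A) {δ : ℝ} (hδ : 0 < δ) :
    ∃ A', An' A' ∧ range A' ⊆ A '' {z | |z.im| < δ} ∧ Hm (del A 1) (del A' 1) := by
  have d : 0 < δ / 6 := by positivity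
  have h1 : An' fun z : ℂ => A (z.re + (δ / 6 * Prf6.sq z.im : ℝ) * I) := by
    refine ⟨fun z => Cyl58.ld_comp
      (f := fun w : ℂ => ((id w.re : ℝ) + (δ / 6 * Prf6.sq w.im : ℝ) * I : ℂ))
      (h.1 _) (Prf6.pm_diag contDiff_id (contDiff_const.mul Prf6.sq_cd) (by
        simpa [deriv_const_mul_field] using mul_pos d (Prf6.sq_deriv z.im))).1,
      fun z w => (h.2 _ _).trans (exists_congr fun n => ?_)⟩
    simp [Complex.ext_iff, Prf6.sq_mono.injective.eq_iff, hδ.ne']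
  refine ⟨_, h1, ?_, ?_⟩
  · rintro _ ⟨z, rfl⟩
    refine ⟨_, ?_, rfl⟩
    simp only [mem_ofPred_eq, add_im, ofReal_im, mul_im, ofReal_re, I_im, mul_one, I_re, mul_zero,
      add_zero, zero_add, abs_mul, abs_of_pos d]
    nlinarith [Prf6.abs_sq_lt z.im]
  · convert (Hd34.delStmt R A 1 h one_pos).2.2.2.2.1 _ d using 1
    ext1 x
    by_cases hx : x ∈ range fun z : ℂ => A (z.re + (δ / 6 * Prf6.sq z.im : ℝ) * I)
    · obtain ⟨z, rfl⟩ := hx
      rw [del_A h1.2, del_A h.2]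
      have := Bs44.st_sq z.im
      simp only [Bs44.st, stp, div_one] at this
      simp only [add_im, ofReal_im, mul_im, ofReal_re, I_im, mul_one, I_re, mul_zero, add_zero,
        zero_add, stp, mul_div_cancel_left₀ _ d.ne', div_one, this]
    · rw [del_off 1 hx, Hd34.del_off h d]
      rintro ⟨z, hz, rfl⟩
      refine hx ⟨z.re + (z.im / (δ / 6) : ℝ) * I, congrArg A ?_⟩
      simp only [add_re, ofReal_re, mul_re, I_re, mul_zero, ofReal_im, I_im, mul_one, sub_self,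
        add_zero, add_im, mul_im, zero_add]
      rw [Prf6.sq_id (by rwa [abs_div, abs_of_pos d, div_le_one d]), mul_div_cancel₀ _ d.ne', re_add_im]

/-- band sum with either side -/
theorem merge (hD : An' D) (hC : An' C) (hV : IsOpen V) (cV : IsPreconnected V)
    (dj : Disjoint (range D) (range C)) (DV : range D ⊆ V) (nl : ¬Lifts (del D 1) V)
    (VC : Disjoint V (core C)) (hs : (∀ z : ℂ, 0 < z.im → C z ∈ V) ∨ ∀ z : ℂ, z.im < 0 → C z ∈ V) :
    ∃ A, An' A ∧ range A ⊆ V ∧ Hm (del D 1 * del C 1) (del A 1) := by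
  have c := Hd34.conn hD one_pos hV cV ((image_subset_range _ _).trans DV) nl
  have o := hV.sdiff (Hd34.core_closed hD)
  have d : Disjoint (V \ core D) (core D ∪ core C) :=
    disjoint_union_right.2 ⟨disjoint_sdiff_left, VC.mono_left sdiff_subset⟩
  have m : ∀ z : ℂ, z.im ≠ 0 → D z ∈ V \ core D := fun z hz =>
    ⟨DV ⟨z, rfl⟩, fun e => hz ((Hd34.mem_core hD).1 e)⟩
  have n : ∀ z, C z ∉ core D := fun z ⟨t, e⟩ => disjoint_left.1 dj ⟨_, e⟩ ⟨z, rfl⟩
  rcases hs with hs | hs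
  · obtain ⟨A, a1, a2, a3⟩ := Bs44.bs R _ D C hD hC o c dj d fun z hz => ⟨m z hz.ne', hs z hz, n z⟩
    exact ⟨A, a1, a2.trans sdiff_subset, a3⟩
  · obtain ⟨A, a1, a2, a3⟩ := Bs44.bs R _ _ _ (an_neg hD) (an_neg hC) o c (by rwa [range_neg, range_neg])
      (by rwa [core_neg, core_neg]) fun z hz => ⟨m _ (by simpa using hz.ne'), hs _ (by simpa), n _⟩
    refine ⟨_, an_neg a1, range_neg A ▸ a2.trans sdiff_subset, ?_⟩
    have := hm_inv a3
    rwa [del_neg hD, del_neg hC, mul_inv, inv_inv, inv_inv, ← del_neg a1] at this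

/-- merging a family -/
theorem merge_all (hW : IsOpen W) (cW : IsPreconnected W) (aW : ∀ t, a t ∈ W) {ι : Type*} (n : ℕ) :
    ∀ (s : Finset ι) (D : ℂ → R) (C : ι → ℂ → R), s.card = n → An' D → range D ⊆ W →
      Dual (del D 1) a → (∀ i ∈ s, An' (C i) ∧ range (C i) ⊆ W ∧ Disjoint (range D) (range (C i)) ∧
        ∀ t, a t ∉ range (C i)) → (∀ i ∈ s, ∀ j ∈ s, i ≠ j → Disjoint (range (C i)) (range (C j))) →
      ∃ A, An' A ∧ range A ⊆ W ∧ Hm (del D 1 * ∏ i ∈ s, del (C i) 1) (del A 1) := by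
  classical
  induction n with
  | zero =>
    intro s D C hs hD DW _ _ _
    exact ⟨D, hD, DW, by simpa [Finset.card_eq_zero.1 hs] using hm_refl _⟩
  | succ n ih =>
    intro s D C hs hD DW ha hC dj
    have := ChartedSpace.locallyConnectedSpace (EE 2) R
    have cs : ∀ i, core (C i) ⊆ range (C i) := fun i => by rintro _ ⟨t, rfl⟩; exact ⟨_, rfl⟩
    set F := W \ ⋃ i ∈ s, core (C i)
    have oF : IsOpen F := hW.sdiff (isClosed_biUnion_finset fun i hi => Hd34.core_closed (hC i hi).1)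
    set V := connectedComponentIn F (a 0)
    have oV : IsOpen V := oF.connectedComponentIn
    have VF : V ⊆ F := connectedComponentIn_subset _ _
    have sub : ∀ S x, IsPreconnected S → S ⊆ F → x ∈ S → x ∈ V → S ⊆ V := fun S x h1 h2 h3 h4 =>
      (h1.subset_connectedComponentIn h3 h2).trans (connectedComponentIn_eq h4).ge
    have aF : range a ⊆ F := by
      rintro _ ⟨t, rfl⟩
      exact ⟨aW t, fun e => let ⟨i, hi, e⟩ := mem_iUnion₂.1 e; (hC i hi).2.2.2 t (cs i e)⟩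
    have aV : ∀ t, a t ∈ V := fun t => sub _ _ (isPreconnected_range ha.1) aF ⟨0, rfl⟩
      (mem_connectedComponentIn (aF ⟨0, rfl⟩)) ⟨t, rfl⟩
    obtain ⟨t, ht⟩ : ∃ t, a t ∈ range D := by
      by_contra! h
      exact dual_nl ha h ⟨0, continuousOn_const, fun x hx => by simpa using del_off 1 hx⟩
    have DV : range D ⊆ V := sub _ _ (isPreconnected_range hD.1.contMDiff.continuous)
      (fun x hx => ⟨DW hx, fun e => let ⟨i, hi, e⟩ := mem_iUnion₂.1 e
        disjoint_left.1 (hC i hi).2.2.1 hx (cs i e)⟩) ht (aV t)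
    obtain ⟨j, hj, z, hz⟩ : ∃ j ∈ s, ∃ z, C j z ∈ V := by
      by_contra! h
      obtain ⟨j, hj⟩ := Finset.card_pos.1 (by omega : 0 < s.card)
      refine h j hj 0 (cW.subset_of_closure_inter_subset oV ⟨_, aW 0, aV 0⟩ (fun x hx => ?_)
        ((hC j hj).2.1 ⟨0, rfl⟩))
      by_cases k : x ∈ F
      · obtain ⟨y, y1, y2⟩ := mem_closure_iff.1 hx.1 _ oF.connectedComponentIn
          (mem_connectedComponentIn k)
        exact sub _ y isPreconnected_connectedComponentIn (connectedComponentIn_subset _ _) y1 y2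
          (mem_connectedComponentIn k)
      · obtain ⟨i, hi, e⟩ := mem_iUnion₂.1 (not_not.1 fun e => k ⟨hx.2, e⟩)
        obtain ⟨_, ⟨y, rfl⟩, y2⟩ := mem_closure_iff.1 hx.1 _ (hC i hi).1.1.isOpen_range (cs i e)
        exact absurd y2 (h i hi y)
    have VC : ∀ i ∈ s, Disjoint V (core (C i)) := fun i hi =>
      disjoint_left.2 fun x hx e => (VF hx).2 (mem_iUnion₂.2 ⟨i, hi, e⟩)
    have side : ∀ S : Set ℂ, Convex ℝ S → (∀ y ∈ S, y.im ≠ 0) → z ∈ S → ∀ y ∈ S, C j y ∈ V :=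
      fun S h1 h2 h3 y hy => sub _ _ (h1.isPreconnected.image _
        (hC j hj).1.1.contMDiff.continuous.continuousOn) (by
          rintro _ ⟨y, hy, rfl⟩
          refine ⟨(hC j hj).2.1 ⟨y, rfl⟩, fun e => ?_⟩
          obtain ⟨i, hi, e⟩ := mem_iUnion₂.1 e
          by_cases k : i = j
          · exact h2 y hy ((Hd34.mem_core (hC j hj).1).1 (k ▸ e))
          · exact disjoint_left.1 (dj i hi j hj k) (cs i e) ⟨y, rfl⟩) ⟨z, h3, rfl⟩ hz ⟨y, hy, rfl⟩
    have z0 : z.im ≠ 0 := fun e => disjoint_left.1 (VC j hj) hz ((Hd34.mem_core (hC j hj).1).2 e)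
    obtain ⟨A, a1, a2, a3⟩ := merge hD (hC j hj).1 oV isPreconnected_connectedComponentIn
      (hC j hj).2.2.1 DV (dual_nl ha aV) (VC j hj) (z0.lt_or_gt.symm.imp
        (side _ (convex_halfSpace_im_gt 0) fun _ h => ne_of_gt h)
        (side _ (convex_halfSpace_im_lt 0) fun _ h => ne_of_lt h))
    obtain ⟨A', b1, b2, b3⟩ := thin a1 one_pos
    have ex : ∀ i ∈ s, ∃ C', An' C' ∧ range C' ⊆ range (C i) ∧ Disjoint (range A') (range C') ∧
        Hm (del (C i) 1) (del C' 1) := fun i hi => by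
      obtain ⟨δ, hδ, h⟩ := Bs44.tube (hC i hi).1 ((Hd34.band_cpt a1 1).isClosed.isOpen_compl.mem_nhdsSet.2
        fun x hx e => disjoint_left.1 (VC i hi) (a2 (image_subset_range _ _ e)) hx)
      obtain ⟨C', c1, c2, c3⟩ := thin (hC i hi).1 hδ
      refine ⟨C', c1, c2.trans (image_subset_range _ _), disjoint_left.2 fun x x1 x2 => ?_, c3⟩
      obtain ⟨y, hy, rfl⟩ := c2 x2
      exact h y hy (image_mono (show {z : ℂ | |z.im| < 1} ⊆ {z | |z.im| ≤ 1} from
        fun z h => (le_of_lt h : |z.im| ≤ 1)) (b2 x1))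
    have : Nonempty (ℂ → R) := ⟨D⟩
    choose! C' c1 c2 c3 c4 using ex
    have b4 := hm_trans a3 b3
    have es := fun i (hi : i ∈ s.erase j) => Finset.mem_of_mem_erase hi
    obtain ⟨B, d1, d2, d3⟩ := ih (s.erase j) A' C' (by rw [Finset.card_erase_of_mem hj, hs]; rfl) b1
      ((b2.trans (image_subset_range _ _)).trans (a2.trans (VF.trans sdiff_subset)))
      (dual_hm (dual_congr ha fun t => by
        rw [Pi.mul_apply, del_off 1 ((hC j hj).2.2.2 t), mul_one]) b4)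
      (fun i hi => ⟨c1 i (es i hi), (c2 i (es i hi)).trans (hC i (es i hi)).2.1, c3 i (es i hi),
        fun t e => (hC i (es i hi)).2.2.2 t (c2 i (es i hi) e)⟩)
      fun i hi k hk h => (dj i (es i hi) k (es k hk) h).mono (c2 i (es i hi)) (c2 k (es k hk))
    refine ⟨B, d1, d2, hm_trans ?_ d3⟩
    rw [← Finset.mul_prod_erase s _ hj, ← mul_assoc]
    exact hm_mul b4 (hm_prod fun i hi => c4 i (es i hi))

/-- **SINGLE** -/
theorem single' {oR : Fm 2 R} (ho : Ori (𝓡 2) oR) {H : Set R} (hW : IsOpen W) (cW : IsPreconnected W)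
    (hH : IsClosed H) (hD : An' D) (DW : range D ⊆ W) {ε : ℝ} (hε : 0 < ε)
    (DH : D '' {z | |z.im| < ε} ⊆ H) (ha : Dual (del D ε) a) (aW : ∀ t, a t ∈ W ∩ H) (hw : SC w)
    (w1 : ∀ x, x ∉ W ∨ x ∈ H → w x = 1) :
    ∃ A, An' A ∧ range A ⊆ W ∧ Hm (del D ε * w) (del A 1) ∧ Dual (del A 1) a ∧
      IsPreconnected (W \ core A) := by
  obtain ⟨m, C, c1, c2, c3⟩ := lev R oR (W \ H) w ho (hW.sdiff hH) hw fun x hx =>
    w1 x (not_and_or.1 hx |>.imp_right not_not.1)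
  obtain ⟨D', d1, d2, d3⟩ := thin hD hε
  have d4 := hm_trans ((Hd34.delStmt R D ε hD hε).2.2.2.2.1 1 one_pos) d3
  obtain ⟨A, a1, a2, a3⟩ := merge_all hW cW (fun t => (aW t).1) _ Finset.univ D' C rfl d1
    ((d2.trans (image_subset_range _ _)).trans DW) (dual_hm ha d4)
    (fun i _ => ⟨(c1 i).1, (c1 i).2.trans sdiff_subset,
      disjoint_left.2 fun x x1 x2 => ((c1 i).2 x2).2 (DH (d2 x1)),
      fun t e => ((c1 i).2 e).2 (aW t).2⟩) fun i _ j _ => c2 i j
  have a4 := hm_trans (hm_mul d4 c3) a3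
  have a5 := dual_hm (dual_congr (u' := del D ε * w) ha fun t => by
    rw [Pi.mul_apply, w1 _ (Or.inr (aW t).2), mul_one]) a4
  exact ⟨A, a1, a2, a4, a5, Hd34.conn a1 one_pos hW cW ((image_subset_range _ _).trans a2)
    (dual_nl a5 fun t => (aW t).1)⟩

end Crest.Agent.X212.Lev9
end
end

-- ▼ part X212/Srf6/Main

/-!
# Row 212, HEL / SURF (helper6): the regluing map
-/

set_option autoImplicit false
noncomputable section
open Set Filter Topology Function
open scoped ContDiff Manifold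
open Crest.Agent.X212.Int54 Crest.Agent.X212.Hel40 Crest.Agent.X212.Lev9
open Crest.Agent.X212.Sep15 (CM)
open Crest.Agent.X212.Bb31 (Fm Df Pos)
open Crest.Agent.X212.H7 (KK An NS Hd)

namespace Crest.Agent.X212.Srf6

variable {R : CM 2} {o : Fm 2 R}

/-- change of coordinates, by a positive map -/
theorem coc (ho : Ori (𝓡 2) o) {A B : ℂ → R} (hA : An o A) (hB : An o B) (nA : NS A) (nB : NS B) :
    ∃ k : Df R, KK o k ∧ Pos o k ∧ ∃ δ > (0 : ℝ), ∀ z : ℂ, |z.im| < δ → k (A z) = B z := by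
  have : Nonempty R := ⟨A 0⟩
  obtain ⟨k, k1, -, δ, h0, k2⟩ := Coc52.coc (X := Orx52.sf ho) (U := univ) (Mcg32.surg Tub3.tub)
    isOpen_univ ((Orx52.an_iff ho).2 hA) ((Orx52.an_iff ho).2 hB) (subset_univ _) (subset_univ _)
    (compl_eq_univ_sdiff _ ▸ nA) (compl_eq_univ_sdiff _ ▸ nB)
  obtain ⟨g, a, b⟩ := Orx52.kk_of ho k1
  exact ⟨Orx52.dfOf ho (Prf6.K_le k1), a.congr fun x => (b x).symm, Orx52.pos_dfOf ho _, δ, h0, k2⟩

/-- one annulus off `K` -/
theorem one (ho : Ori (𝓡 2) o) (hc : IsPreconnected (univ : Set R)) {K : Set R} {e : ℂ → R}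
    {δ δ' ε : ℝ} {u : R → Circle} (hK : IsClosed K) (cK : IsPreconnected Kᶜ) (he : Hdl e δ)
    (h0 : 0 < δ') (h1 : δ' < δ) (hε : 0 < ε) (h2 : ε ≤ δ' / 2) (hu : SC u) (u1 : ∀ x ∈ K, u x = 1)
    (u2 : ∀ z ∈ Xc δ', e z ∉ K ∧ u (e z) = dz ε z) :
    ∃ A, An o A ∧ range A ⊆ Kᶜ ∧ NS A ∧ Hm u (del A 1) := by
  obtain ⟨-, c, -, ⟨σ, hσ⟩, b⟩ := Hd34.hd1Stmt R e δ δ' he h0 h1
  obtain ⟨b1, b2, -, b3⟩ := b σ hσ
  obtain ⟨b4, b5⟩ := b3 ε hε h2
  have s : e '' Xc δ' ⊆ Kᶜ := by rintro _ ⟨z, hz, rfl⟩; exact (u2 z hz).1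
  have m : ∀ t : ℝ, e (t * Complex.I) ∈ e '' Xc δ' := fun t =>
    ⟨_, .inl ⟨0, by simpa using h0.le⟩, rfl⟩
  obtain ⟨A, a1, a2, a3, a4, -⟩ := single' (w := (del (hA e σ) ε)⁻¹ * u) ho hK.isOpen_compl cK
    c.isClosed b1 (b2.trans s) hε ((image_subset_range _ _).trans b2) b5 (fun t => ⟨s (m t), m t⟩)
    ((Hd34.delStmt R _ ε b1 hε).1.inv.mul hu) (by
      rintro x (hx | ⟨z, hz, rfl⟩)
      · rw [Pi.mul_apply, Pi.inv_apply, u1 x (not_not.1 hx), Hd34.del_off b1 hε fun k =>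
          hx (s (b2 (image_subset_range _ _ k))), inv_one, one_mul]
      · rw [Pi.mul_apply, Pi.inv_apply, (u2 z hz).2, b4 z (Hd34.Xc_sub h1 hz), inv_mul_cancel])
  rw [mul_inv_cancel_left] at a3
  have ns : ∀ B, An' B → del B 1 = del A 1 → NS B := fun B h e => by
    have := Hd34.conn h one_pos isOpen_univ hc (subset_univ _) (e ▸ dual_nl a4 fun _ => trivial)
    rwa [← compl_eq_univ_sdiff] at this
  rcases Sm10.an_or ho a1 with h | h
  · exact ⟨A, h, a2, ns A a1 rfl, a3⟩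
  · exact ⟨_, h, (range_comp_subset_range _ _).trans a2, ns _ (Sm10.an'_rf a1) (Sm10.del_rf a1 1),
      (Sm10.del_rf a1 1).symm ▸ a3⟩

/-- **SURF** -/
theorem surf : SurfStmt := by
  intro R o K₁ K₂ e₁ e₂ δ δ' ε u₁ u₂ ho hc k1 k2 c1 c2 h1 h2 d0 d1 e0 e1 s1 s2 o1 o2 hx
  obtain ⟨A₁, a1, a2, a3, a4⟩ := one ho hc k1 c1 h1 d0 d1 e0 e1 s1 o1
    fun z hz => ⟨(hx z hz).1, (hx z hz).2.2.1⟩
  obtain ⟨A, b1, b2, b3, b4⟩ := one ho hc k2 c2 h2 d0 d1 e0 e1 s2 o2
    fun z hz => ⟨(hx z hz).2.1, (hx z hz).2.2.2⟩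
  obtain ⟨h, kk, hp, η, η0, hη⟩ := coc ho a1 b1 a3 b3
  obtain ⟨B, δ₁, hd, -⟩ := Orx52.hd_same ho isOpen_univ b1 (subset_univ _)
    (compl_eq_univ_sdiff _ ▸ b3)
  have m0 := lt_min η0 hd.pos
  have p := half_pos m0
  have q := half_lt_self m0
  set r := min η δ₁ / 2
  have a' := Sm10.an' a1
  have b' := Sm10.an' b1
  have e : del A r ∘ h = del A₁ r := funext fun x => by
    have l : ∀ z : ℂ, |z.im| ≤ r → h (A₁ z) = A z := fun z hz =>
      hη z ((hz.trans_lt q).trans_le (min_le_left _ _))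
    by_cases k : x ∈ A₁ '' {z | |z.im| ≤ r}
    · obtain ⟨z, hz, rfl⟩ := k
      rw [comp_apply, l z hz, Hd34.del_app a', Hd34.del_app b']
    · exact (Hd34.del_off b' p fun ⟨z, hz, c⟩ =>
        k ⟨z, hz, h.injective ((l z hz).trans c)⟩).trans (Hd34.del_off a' p k).symm
  have n : ∀ {A : ℂ → R} {K : Set R}, An' A → range A ⊆ Kᶜ → ∀ᶠ x in 𝓝ˢ K, del A r x = 1 :=
    fun a c => mem_of_superset ((Hd34.band_cpt a r).isClosed.isOpen_compl.mem_nhdsSet.2
      fun _ k d => c (image_subset_range _ _ d) k) fun _ => Hd34.del_off a p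
  have t := fun A a => (Hd34.delStmt R A 1 a one_pos).2.2.2.2.1 r p
  exact ⟨h, A, B, δ₁, r, kk, hp, hd, p, q.trans_le (min_le_right _ _),
    (Hd34.delStmt R A r b' p).1, e ▸ hm_trans a4 (t _ a'), hm_trans b4 (t _ b'),
    (n a' a2).mono fun x c => (congrFun e x).trans c, n b' b2⟩

end Crest.Agent.X212.Srf6
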